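import Mathlib.GroupTheory.QuotientGroup.Defs
import Mathlib.Data.Real.Basic
import Mathlib.Data.Fintype.Card

/-! Surjunctive and amenable groups. -/

namespace Vale.Agent.P194

open scoped Pointwise symmDiff

/-- A group is surjunctive: every injective cellular automaton over a finite alphabet on it
is surjective. A cellular automaton has a finite memory set `M` and a local rule `μ`. -/
def IsSurjunctive (G : Type*) [Group G] : Prop :=
  ∀ (k : ℕ) (τ : (G → Fin k) → (G → Fin k)),
    (∃ (M : Finset G) (μ : (M → Fin k) → Fin k),
      ∀ (c : G → Fin k) (g : G), τ c g = μ fun m => c (g * m)) →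
    Function.Injective τ → Function.Surjective τ

open Classical in
/-- Amenability by the Følner condition. -/
def IsAmenable (G : Type*) [Group G] : Prop :=
  ∀ (F : Finset G) (ε : ℝ), 0 < ε →
    ∃ D : Finset G, D.Nonempty ∧
      ∀ g ∈ F, (((D.image (g * ·)) ∆ D).card : ℝ) < ε * D.card

end Vale.Agent.P194
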