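import Vale.Agent.P194.Defs
import Vale.Agent.P194.DefsMore
import Mathlib.Logic.Equiv.Fintype
import Mathlib.Tactic.Positivity
import Mathlib.Tactic.Linarith

/-! Amenable groups are sofic. -/

namespace Vale.Agent.P194

open scoped symmDiff

/-- Amenable groups are sofic. -/
theorem isSofic_of_isAmenable {G : Type*} [Group G] (h : IsAmenable G) : IsSofic G := by
  classical
  intro F ε hε
  let F' : Finset G := F ∪ (F ×ˢ F).image fun p => p.1 * p.2
  obtain ⟨D, hD, hFol⟩ := h F' (ε / 2) (by positivity)
  let e : D ≃ Fin D.card := D.equivFin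
  let π : G → Equiv.Perm D := fun g =>
    Equiv.extendSubtype (p := fun x : D => g * (x : G) ∈ D) (q := fun y : D => g⁻¹ * (y : G) ∈ D)
      { toFun := fun x => ⟨⟨g * x.1, x.2⟩, by simp [← mul_assoc]⟩
        invFun := fun y => ⟨⟨g⁻¹ * y.1, y.2⟩, by simp [← mul_assoc]⟩
        left_inv := fun x => by ext; simp [← mul_assoc]
        right_inv := fun y => by ext; simp [← mul_assoc] }
  have hπ : ∀ g (x : D), g * (x : G) ∈ D → (π g x : G) = g * (x : G) := fun g x hx => by
    simp only [π]
    rw [Equiv.extendSubtype_apply_of_mem _ x hx]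
    rfl
  have hout : ∀ g ∈ F', (((Finset.univ : Finset D).filter fun x : D => g * (x : G) ∉ D).card : ℝ)
      < ε / 2 * D.card := by
    intro g hg
    refine lt_of_le_of_lt (Nat.cast_le.2 ?_) (hFol g hg)
    refine Finset.card_le_card_of_injOn (fun x => g * (x : G)) ?_ ?_
    · intro x hx
      have hx' : g * (x : G) ∉ D := (Finset.mem_filter.1 hx).2
      exact Finset.mem_symmDiff.2 (.inl ⟨Finset.mem_image.2 ⟨x, x.2, rfl⟩, hx'⟩)
    · intro x _ y _ hxy
      exact Subtype.ext (mul_left_cancel hxy)
  let σ : G → Equiv.Perm (Fin D.card) := fun g => (e.symm.trans (π g)).trans e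
  have hσ : ∀ g x, σ g x = e (π g (e.symm x)) := fun g x => rfl
  refine ⟨D.card, σ, hD.card_pos, ?_, ?_⟩
  · intro g hg h hh
    have hhF : h ∈ F' := Finset.mem_union_left _ hh
    have hghF : g * h ∈ F' :=
      Finset.mem_union_right _ (Finset.mem_image.2 ⟨(g, h), Finset.mem_product.2 ⟨hg, hh⟩, rfl⟩)
    have hsub : ({x | σ g (σ h x) ≠ σ (g * h) x} : Finset (Fin D.card)) ⊆
        (((Finset.univ : Finset D).filter fun x : D => h * (x : G) ∉ D) ∪
          (Finset.univ : Finset D).filter fun x : D => g * h * (x : G) ∉ D).image e := by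
      intro x hx
      rw [Finset.mem_filter] at hx
      refine Finset.mem_image.2 ⟨e.symm x, ?_, by simp⟩
      by_contra hmem
      simp only [Finset.mem_union, Finset.mem_filter, Finset.mem_univ, true_and, not_or,
        not_not] at hmem
      refine hx.2 ?_
      simp only [hσ, Equiv.symm_apply_apply]
      congr 1
      apply Subtype.ext
      rw [hπ _ _ hmem.2, hπ g _ ?_, hπ h _ hmem.1, mul_assoc]
      rw [hπ h _ hmem.1, ← mul_assoc]
      exact hmem.2
    have h1 := hout h hhF
    have h2 := hout (g * h) hghF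
    have h3 := (Finset.card_le_card hsub).trans (Finset.card_image_le.trans
      (Finset.card_union_le _ _))
    have h4 : (({x | σ g (σ h x) ≠ σ (g * h) x} : Finset (Fin D.card)).card : ℝ) ≤ _ :=
      Nat.cast_le.2 h3
    push_cast at h4
    linarith
  · intro g hg hg1
    have hgF : g ∈ F' := Finset.mem_union_left _ hg
    have hsub : ({x | σ g x = x} : Finset (Fin D.card)) ⊆
        ((Finset.univ : Finset D).filter fun x : D => g * (x : G) ∉ D).image e := by
      intro x hx
      rw [Finset.mem_filter] at hx
      refine Finset.mem_image.2 ⟨e.symm x, ?_, by simp⟩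
      refine Finset.mem_filter.2 ⟨Finset.mem_univ _, fun hmem => hg1 ?_⟩
      have hfix : π g (e.symm x) = e.symm x := by
        apply e.injective
        rw [← hσ, hx.2, Equiv.apply_symm_apply]
      have := congrArg Subtype.val hfix
      rw [hπ _ _ hmem] at this
      exact mul_eq_right.1 this
    have h1 := hout g hgF
    have h4 : (({x | σ g x = x} : Finset (Fin D.card)).card : ℝ) ≤ _ :=
      Nat.cast_le.2 ((Finset.card_le_card hsub).trans Finset.card_image_le)
    have : (0 : ℝ) ≤ D.card := Nat.cast_nonneg _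
    nlinarith

end Vale.Agent.P194
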