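import Mathlib.Algebra.MonoidAlgebra.Basic
import Mathlib.Algebra.Group.UniqueProds.Basic
import Mathlib.GroupTheory.QuotientGroup.Basic
import Mathlib.RingTheory.Nilpotent.Lemmas
import Mathlib.RingTheory.Finiteness.Ideal

/-! Group rings of central extensions of unique product groups are directly finite. -/

namespace Vale.Agent.P194.CentralUP

open MonoidAlgebra

set_option linter.unusedSectionVars false
open scoped IsMulCommutative

variable {K : Type*} [CommRing K] {G : Type*} [Group G] (Z : Subgroup G)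

/-- The embedding of the group ring of the subgroup. -/
noncomputable abbrev iota : MonoidAlgebra K Z →+* MonoidAlgebra K G :=
  mapDomainRingHom K Z.subtype

/-- The chosen basis element over a coset. -/
noncomputable abbrev u (q : G ⧸ Z) : MonoidAlgebra K G := single q.out 1

lemma commute_iota (hZ : Z ≤ Subgroup.center G) (c : MonoidAlgebra K Z) (x : MonoidAlgebra K G) :
    iota Z c * x = x * iota Z c := by
  induction c using MonoidAlgebra.induction_linear with
  | zero => simp
  | add a b ha hb => rw [map_add, add_mul, mul_add, ha, hb]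
  | single z r =>
    induction x using MonoidAlgebra.induction_linear with
    | zero => simp
    | add a b ha hb => rw [mul_add, add_mul, ha, hb]
    | single g t =>
      have := Subgroup.mem_center_iff.1 (hZ z.2) g
      simp [this, mul_comm r t]

variable [Z.Normal] [IsMulCommutative Z]

/-- The element of the subgroup carried by `g`. -/
noncomputable def zpart (g : G) : Z :=
  ⟨g * (QuotientGroup.mk (s := Z) g).out⁻¹, (QuotientGroup.eq_one_iff _).1 (by
    rw [QuotientGroup.mk_mul, QuotientGroup.mk_inv, QuotientGroup.out_eq', mul_inv_cancel])⟩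

open Classical in
/-- The coefficient of a coset, in the group ring of the subgroup. -/
noncomputable def coef (q : G ⧸ Z) : MonoidAlgebra K G →+ MonoidAlgebra K Z where
  toFun x := x.coeff.sum fun g r => if QuotientGroup.mk g = q then single (zpart Z g) r else 0
  map_zero' := by simp
  map_add' x y := by
    rw [coeff_add, Finsupp.sum_add_index' (fun g => by simp) (fun g r t => by split <;> simp)]

open Classical in
lemma coef_single (q : G ⧸ Z) (g : G) (r : K) :
    coef Z q (single g r) = if QuotientGroup.mk g = q then single (zpart Z g) r else 0 := by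
  show ((single g r).coeff.sum fun g r => if QuotientGroup.mk g = q then single (zpart Z g) r else 0) = _
  rw [coeff_single, Finsupp.sum_single_index]
  simp

open Classical in
lemma coef_basis (c : MonoidAlgebra K Z) (a q : G ⧸ Z) :
    coef Z q (iota Z c * u Z a) = if a = q then c else 0 := by
  induction c using MonoidAlgebra.induction_linear with
  | zero => simp
  | add x y hx hy => rw [map_add, add_mul, map_add, hx, hy]; split <;> simp
  | single z r =>
    have hq : QuotientGroup.mk (s := Z) ((z : G) * a.out) = a := by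
      rw [QuotientGroup.mk_mul, (QuotientGroup.eq_one_iff _).2 z.2, QuotientGroup.out_eq', one_mul]
    have hz : zpart Z ((z : G) * a.out) = z := by
      ext
      simp [zpart, hq]
    simp [coef_single, hq, hz]

/-- Every element is the sum of its coset components. -/
lemma decomp (x : MonoidAlgebra K G) :
    ∃ A : Finset (G ⧸ Z), ∀ B, A ⊆ B → ∑ q ∈ B, iota Z (coef Z q x) * u Z q = x := by
  classical
  induction x using MonoidAlgebra.induction_linear with
  | zero => exact ⟨∅, fun B _ => by simp⟩
  | add x y hx hy =>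
    obtain ⟨A, hA⟩ := hx
    obtain ⟨A', hA'⟩ := hy
    refine ⟨A ∪ A', fun B hB => ?_⟩
    simp only [map_add, add_mul, Finset.sum_add_distrib]
    rw [hA B (Finset.subset_union_left.trans hB), hA' B (Finset.subset_union_right.trans hB)]
  | single g r =>
    refine ⟨{QuotientGroup.mk g}, fun B hB => ?_⟩
    rw [Finset.sum_eq_single (QuotientGroup.mk g : G ⧸ Z)]
    · simp [coef_single, zpart]
    · intro q _ hq
      simp [coef_single, Ne.symm hq]
    · intro h
      exact absurd (hB (by simp)) h

variable (hZ : Z ≤ Subgroup.center G)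

/-- The cocycle of the chosen coset representatives. -/
noncomputable def sigma (a b : G ⧸ Z) : MonoidAlgebra K Z :=
  single (zpart Z (a.out * b.out)) 1

lemma isUnit_sigma (a b : G ⧸ Z) : IsUnit (sigma (K := K) Z a b) := by
  refine IsUnit.of_mul_eq_one (single (zpart Z (a.out * b.out))⁻¹ 1) ?_
  simp [sigma, one_def]

include hZ in
lemma basis_mul (c d : MonoidAlgebra K Z) (a b : G ⧸ Z) :
    iota Z c * u Z a * (iota Z d * u Z b) = iota Z (c * d * sigma Z a b) * u Z (a * b) := by
  have h : iota Z (sigma Z a b) * u Z (a * b) = u (K := K) Z a * u Z b := by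
    simp [sigma, zpart]
  calc iota Z c * u Z a * (iota Z d * u Z b)
      = iota Z c * iota Z d * (u Z a * u Z b) := by
        rw [mul_assoc, ← mul_assoc (u Z a), ← commute_iota Z hZ d (u Z a)]
        simp only [mul_assoc]
    _ = iota Z (c * d * sigma Z a b) * u Z (a * b) := by
        rw [← h, map_mul, map_mul]; simp only [mul_assoc]

open Classical in
include hZ in
lemma coef_mul (x y : MonoidAlgebra K G) (A B : Finset (G ⧸ Z))
    (hA : ∑ q ∈ A, iota Z (coef Z q x) * u Z q = x)
    (hB : ∑ q ∈ B, iota Z (coef Z q y) * u Z q = y) (q : G ⧸ Z) :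
    coef Z q (x * y) = ∑ a ∈ A, ∑ b ∈ B,
      if a * b = q then coef Z a x * coef Z b y * sigma Z a b else 0 := by
  conv_lhs => rw [← hA, ← hB, Finset.sum_mul_sum, map_sum]
  refine Finset.sum_congr rfl fun a _ => ?_
  rw [map_sum]
  refine Finset.sum_congr rfl fun b _ => ?_
  rw [basis_mul Z hZ, coef_basis]

include hZ in
lemma coef_mem_mul (x y : MonoidAlgebra K G) (I J : Ideal (MonoidAlgebra K Z))
    (hx : ∀ q, coef Z q x ∈ I) (hy : ∀ q, coef Z q y ∈ J) (q : G ⧸ Z) :
    coef Z q (x * y) ∈ I * J := by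
  classical
  obtain ⟨A, hA⟩ := decomp Z x
  obtain ⟨B, hB⟩ := decomp Z y
  rw [coef_mul Z hZ x y A B (hA A subset_rfl) (hB B subset_rfl) q]
  refine sum_mem fun a _ => sum_mem fun b _ => ?_
  split
  · exact Ideal.mul_mem_right _ _ (Ideal.mul_mem_mul (hx a) (hy b))
  · exact zero_mem _

lemma coef_eq_zero {x : MonoidAlgebra K G} {A : Finset (G ⧸ Z)}
    (hA : ∑ q ∈ A, iota Z (coef Z q x) * u Z q = x) {q : G ⧸ Z} (hq : q ∉ A) :
    coef Z q x = 0 := by
  classical
  rw [← hA, map_sum]
  refine Finset.sum_eq_zero fun a ha => ?_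
  rw [coef_basis, if_neg (ne_of_mem_of_not_mem ha hq)]

include hZ in
/-- Modulo a prime of the central group ring the group ring has no zero divisors. -/
lemma prime_mem_or_mem [UniqueProds (G ⧸ Z)] (P : Ideal (MonoidAlgebra K Z)) [hP : P.IsPrime]
    (x y : MonoidAlgebra K G) (hxy : x * y = 0) :
    (∀ q, coef Z q x ∈ P) ∨ (∀ q, coef Z q y ∈ P) := by
  classical
  by_contra h
  push Not at h
  obtain ⟨⟨a₁, ha₁⟩, ⟨b₁, hb₁⟩⟩ := h
  obtain ⟨A, hA⟩ := decomp Z x
  obtain ⟨B, hB⟩ := decomp Z y
  have hA1 := hA A subset_rfl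
  have hB1 := hB B subset_rfl
  have hmA : a₁ ∈ A.filter fun q => coef Z q x ∉ P := by
    refine Finset.mem_filter.2 ⟨?_, ha₁⟩
    by_contra h; exact ha₁ (coef_eq_zero Z hA1 h ▸ zero_mem P)
  have hmB : b₁ ∈ B.filter fun q => coef Z q y ∉ P := by
    refine Finset.mem_filter.2 ⟨?_, hb₁⟩
    by_contra h; exact hb₁ (coef_eq_zero Z hB1 h ▸ zero_mem P)
  obtain ⟨a₀, ha₀, b₀, hb₀, hu⟩ := UniqueProds.uniqueMul_of_nonempty ⟨a₁, hmA⟩ ⟨b₁, hmB⟩
  rw [Finset.mem_filter] at ha₀ hb₀
  have h0 := coef_mul Z hZ x y A B hA1 hB1 (a₀ * b₀)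
  rw [hxy, map_zero] at h0
  suffices hmem : coef Z a₀ x * coef Z b₀ y * sigma Z a₀ b₀ ∈ P by
    rcases hP.mem_or_mem hmem with h | h
    · exact (hP.mem_or_mem h).elim ha₀.2 hb₀.2
    · exact hP.ne_top (Ideal.eq_top_of_isUnit_mem _ h (isUnit_sigma Z a₀ b₀))
  rw [← Finset.sum_product', ← Finset.add_sum_erase _ _ (Finset.mk_mem_product ha₀.1 hb₀.1)] at h0
  rw [if_pos rfl] at h0
  rw [eq_neg_of_add_eq_zero_left h0.symm]
  refine neg_mem (sum_mem fun p hp => ?_)
  obtain ⟨hne, hp⟩ := Finset.mem_erase.1 hp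
  obtain ⟨hpa, hpb⟩ := Finset.mem_product.1 hp
  split
  next heq =>
    refine Ideal.mul_mem_right _ _ ?_
    by_cases hx' : coef Z p.1 x ∈ P
    · exact Ideal.mul_mem_right _ _ hx'
    by_cases hy' : coef Z p.2 y ∈ P
    · exact Ideal.mul_mem_left _ _ hy'
    obtain ⟨e1, e2⟩ := hu (Finset.mem_filter.2 ⟨hpa, hx'⟩) (Finset.mem_filter.2 ⟨hpb, hy'⟩) heq
    exact absurd (Prod.ext e1 e2) hne
  next => exact zero_mem _

include hZ in
/-- Group rings of central extensions of unique product groups are directly finite. -/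
theorem mul_eq_one_symm' [UniqueProds (G ⧸ Z)] {x y : MonoidAlgebra K G} (hxy : x * y = 1) :
    y * x = 1 := by
  classical
  set e := 1 - y * x with he
  have hxe : x * e = 0 := by rw [he, mul_sub, mul_one, ← mul_assoc, hxy, one_mul, sub_self]
  have hee : e * e = e := by
    rw [he, sub_mul (1 : MonoidAlgebra K G), one_mul, mul_assoc, ← he, hxe, mul_zero, sub_zero]
  have hnil : ∀ q, coef Z q e ∈ nilradical (MonoidAlgebra K Z) := by
    intro q
    rw [nilradical_eq_sInf, Submodule.mem_sInf]
    intro P (hP : Ideal.IsPrime P)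
    have : Ideal.IsPrime P := hP
    rcases prime_mem_or_mem Z hZ P x e hxe with h | h
    · exfalso
      have h1 := coef_mem_mul Z hZ x y P ⊤ h (fun _ => Submodule.mem_top) 1
      rw [hxy, Ideal.mul_top, one_def, coef_single, if_pos (QuotientGroup.mk_one _)] at h1
      refine this.ne_top (Ideal.eq_top_of_isUnit_mem _ h1 ?_)
      refine IsUnit.of_mul_eq_one (single (zpart Z 1)⁻¹ 1) ?_
      simp [one_def]
    · exact h q
  obtain ⟨A, hA⟩ := decomp Z e
  let N : Ideal (MonoidAlgebra K Z) := Ideal.span ↑(A.image fun q => coef Z q e)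
  have hN : N ≤ nilradical (MonoidAlgebra K Z) := Ideal.span_le.2 (by
    intro c hc
    obtain ⟨q, _, rfl⟩ := Finset.mem_image.1 (Finset.mem_coe.1 hc)
    exact hnil q)
  have heN : ∀ q, coef Z q e ∈ N := by
    intro q
    by_cases hq : q ∈ A
    · exact Ideal.subset_span (Finset.mem_coe.2 (Finset.mem_image_of_mem _ hq))
    · rw [coef_eq_zero Z (hA A subset_rfl) hq]; exact zero_mem _
  obtain ⟨k, hk⟩ : ∃ k, N ^ k = ⊥ := by
    have hfg : N.FG := ⟨_, rfl⟩
    have hsub : N ≤ (⊥ : Ideal (MonoidAlgebra K Z)).radical := hN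
    obtain ⟨k, hk⟩ := Ideal.exists_pow_le_of_le_radical_of_fg hsub hfg
    exact ⟨k, le_bot_iff.1 hk⟩
  have hpow : ∀ j : ℕ, ∀ q, coef Z q e ∈ N ^ (j + 1) := by
    intro j
    induction j with
    | zero => simpa using heN
    | succ j ih =>
      intro q
      have := coef_mem_mul Z hZ e e _ _ ih heN q
      rwa [hee, ← pow_succ] at this
  have hzero : e = 0 := by
    rw [← hA A subset_rfl]
    refine Finset.sum_eq_zero fun q _ => ?_
    have := Ideal.pow_le_pow_right (Nat.le_succ k) (hpow k q)
    rw [hk, Ideal.mem_bot] at this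
    rw [this, map_zero, zero_mul]
  exact (sub_eq_zero.1 (he ▸ hzero)).symm

end Vale.Agent.P194.CentralUP
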