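import Mathlib.GroupTheory.Finiteness
import Mathlib.GroupTheory.Perm.Basic
import Mathlib.Data.ZMod.Basic
import Mathlib.Data.Real.Basic

/-! Definitions used for P194. -/

namespace Vale.Agent.P194

/-- `N` is `p`-indicable on every finitely generated subgroup: each nontrivial finitely generated
subgroup maps onto `ZMod p`. For `p = 0` this is local indicability, as `ZMod 0 = ℤ`. -/
def IsLocallyIndicable (p : ℕ) (N : Type*) [Group N] : Prop :=
  ∀ H : Subgroup N, H.FG → H ≠ ⊥ →
    ∃ φ : H →* Multiplicative (ZMod p), Function.Surjective φ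

/-- A group is sofic: every finite subset has almost multiplicative, almost free maps into
finite symmetric groups, for the normalised Hamming distance. -/
def IsSofic (G : Type*) [Group G] : Prop :=
  ∀ (F : Finset G) (ε : ℝ), 0 < ε →
    ∃ (m : ℕ) (σ : G → Equiv.Perm (Fin m)), 0 < m ∧
      (∀ g ∈ F, ∀ h ∈ F,
        (({x | σ g (σ h x) ≠ σ (g * h) x} : Finset (Fin m)).card : ℝ) ≤ ε * m) ∧
      (∀ g ∈ F, g ≠ 1 →
        (({x | σ g x = x} : Finset (Fin m)).card : ℝ) ≤ ε * m)

end Vale.Agent.P194
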