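import Mathlib.Algebra.Group.Defs
import Mathlib.Order.Defs.Unbundled

/-! Bi-orderable groups. -/

namespace Vale.Agent.P194

/-- A group is bi-orderable: it has a strict total order invariant under left and right
multiplication. -/
def IsBiOrderable (Q : Type*) [Group Q] : Prop :=
  ∃ r : Q → Q → Prop, IsStrictTotalOrder Q r ∧
    ∀ a b c : Q, r b c → r (a * b) (a * c) ∧ r (b * a) (c * a)

end Vale.Agent.P194
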