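import Vale.Agent.P194.Defs
import Mathlib.LinearAlgebra.FreeModule.PID
import Mathlib.GroupTheory.Sylow
import Mathlib.GroupTheory.IndexNormal
import Mathlib.GroupTheory.Finiteness
import Mathlib.GroupTheory.SpecificGroups.Cyclic
import Mathlib.Algebra.Module.Torsion.Free
import Mathlib.LinearAlgebra.Basis.Basic
import Mathlib.Algebra.EuclideanDomain.Int
import Mathlib.RingTheory.PrincipalIdealDomain

/-! Examples of locally indicable kernels. -/

namespace Vale.Agent.P194

/-- Torsion-free abelian groups are locally indicable. -/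
theorem isLocallyIndicable_of_abelian (N : Type*) [Group N]
    (hcomm : ∀ a b : N, a * b = b * a) [IsMulTorsionFree N] : IsLocallyIndicable 0 N := by
  intro H hfg hne
  let _ : CommGroup H := { (inferInstance : Group H) with
    mul_comm := fun a b => Subtype.ext (hcomm _ _) }
  have : Group.FG H := (Group.fg_iff_subgroup_fg H).2 hfg
  have : Module.Finite ℤ (Additive H) := Module.Finite.iff_addGroup_fg.2 inferInstance
  have : IsAddTorsionFree (Additive H) := inferInstance
  have : Module.IsTorsionFree ℤ (Additive H) := inferInstance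
  let b := Module.Free.chooseBasis ℤ (Additive H)
  have hnonempty : Nonempty (Module.Free.ChooseBasisIndex ℤ (Additive H)) := by
    by_contra he
    rw [not_nonempty_iff] at he
    refine hne ((Subgroup.eq_bot_iff_forall H).2 fun x hx => ?_)
    have h : b.repr (Additive.ofMul (⟨x, hx⟩ : H)) = b.repr 0 := Subsingleton.elim _ _
    exact congrArg Subtype.val (congrArg Additive.toMul (b.repr.injective h))
  obtain ⟨i⟩ := hnonempty
  refine ⟨{ toFun := fun x => Multiplicative.ofAdd (b.coord i (Additive.ofMul x) : ℤ)
            map_one' := by simp; rfl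
            map_mul' := fun x y => by rw [ofMul_mul, map_add]; rfl }, fun y => ?_⟩
  refine ⟨Additive.toMul ((show ℤ from y.toAdd) • b i), ?_⟩
  change Multiplicative.ofAdd (b.coord i (((show ℤ from y.toAdd) • b i : Additive H))) = y
  rw [map_zsmul, Module.Basis.coord_apply, Module.Basis.repr_self, Finsupp.single_eq_same,
    smul_eq_mul, mul_one]
  rfl

/-- A group all of whose finitely generated subgroups are finite `p`-groups is locally
`ZMod p`-indicable. -/
theorem isLocallyIndicable_of_locallyFinite_pGroup (p : ℕ) [Fact p.Prime] (N : Type*) [Group N]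
    (h : ∀ H : Subgroup N, H.FG → Finite H ∧ IsPGroup p H) : IsLocallyIndicable p N := by
  intro H hfg hne
  obtain ⟨hfin, hp⟩ := h H hfg
  have hp' : p.Prime := Fact.out
  obtain ⟨k, hk⟩ := IsPGroup.iff_card.1 hp
  have hk0 : k ≠ 0 := by
    rintro rfl
    rw [pow_zero] at hk
    exact hne (Subgroup.eq_bot_of_card_eq H hk)
  obtain ⟨L, hL⟩ := Sylow.exists_subgroup_card_pow_prime (G := H) p (n := k - 1)
    (by rw [hk]; exact pow_dvd_pow p (Nat.sub_le k 1))
  have hidx : L.index = p := by
    have h1 := L.card_mul_index
    rw [hL, hk] at h1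
    refine Nat.eq_of_mul_eq_mul_left (pow_pos hp'.pos (k - 1)) (h1.trans ?_)
    rw [← pow_succ, Nat.sub_add_cancel (Nat.one_le_iff_ne_zero.2 hk0)]
  have : L.Normal := by
    refine Subgroup.normal_of_index_eq_minFac_card ?_
    rw [hidx, hk, Nat.Prime.pow_minFac hp' hk0]
  have hcard : Nat.card (H ⧸ L) = p := hidx
  let e : H ⧸ L ≃* Multiplicative (ZMod p) :=
    mulEquivOfPrimeCardEq hcard ((Nat.card_congr Multiplicative.toAdd).trans (Nat.card_zmod p))
  exact ⟨e.toMonoidHom.comp (QuotientGroup.mk' L),
    e.surjective.comp (QuotientGroup.mk'_surjective L)⟩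

end Vale.Agent.P194
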