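import Mathlib.Algebra.Group.ForwardDiff
import Mathlib.RingTheory.Binomial
import Mathlib.Data.ZMod.Basic
import Mathlib.Algebra.CharP.Basic
import Mathlib.GroupTheory.Coset.Defs
import Mathlib.Algebra.Ring.Subring.Basic
import Mathlib.Algebra.Field.Basic
import Mathlib.Data.Nat.Choose.Dvd

/-! One step `H ↘ ker φ` of the descent, by moments with respect to `φ`. -/

namespace Vale.Agent.P194

open Finset

variable {K : Type*} [Ring K] {G : Type*} [Group G] {ι : Type*} [Fintype ι]

/-- `f` is constant on the right cosets `H * x`. -/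
def Inv (H : Subgroup G) {α : Type*} (f : G → α) : Prop :=
  ∀ h ∈ H, ∀ x, f (h * x) = f x

/-- The transpose of right multiplication by the matrix `M`, supported on `T`. -/
def star (T : Finset G) (M : ι → ι → G → K) (F : ι → G → K) : ι → G → K :=
  fun j x => ∑ i, ∑ g ∈ T, M j i g * F i (x * g)

/-- The pairing on the finite set `S`. -/
def pairing (S : Finset G) (w F : ι → G → K) : K :=
  ∑ j, ∑ x ∈ S, w j x * F j x

/-- Injectivity of `M` modulo `H`, on vectors supported in `S`. -/
def Good (S T : Finset G) (M : ι → ι → G → K) (H : Subgroup G) : Prop :=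
  ∀ w : ι → G → K,
    (∀ F : ι → G → K, (∀ i, Inv H (F i)) → pairing S w (star T M F) = 0) →
      ∀ j (f : G → K), Inv H f → ∑ x ∈ S, w j x * f x = 0

/-- Generalised polynomials of degree less than `k`, with central values. -/
def Low {A : Type*} [AddCommGroup A] (e : A) (k : ℕ) (q : A → Subring.center K) : Prop :=
  (fwdDiff e)^[k] q = 0

lemma low_shift {A : Type*} [AddCommGroup A] (e : A) (hgen : ∀ a : A, ∃ z : ℤ, z • e = a)
    {k : ℕ} {q : A → Subring.center K} (hq : Low e (k + 1) q) (c : A) :
    Low e k (fun y => q (y + c) - q y) := by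
  unfold Low at hq ⊢
  have hcomm : ∀ m : ℕ, (fwdDiff e)^[m] (fun y => q (y + c) - q y) =
      fun y => (fwdDiff e)^[m] q (y + c) - (fwdDiff e)^[m] q y := by
    intro m
    induction m with
    | zero => rfl
    | succ m ih =>
      simp only [Function.iterate_succ_apply', ih]
      funext y
      simp only [fwdDiff, add_right_comm y e c]
      abel
  rw [hcomm]
  rw [Function.iterate_succ_apply'] at hq
  set p := (fwdDiff e)^[k] q with hp
  have h1 : ∀ y, p (y + e) = p y := fun y => sub_eq_zero.1 (congrFun hq y)
  have h2 : ∀ (z : ℤ) y, p (y + z • e) = p y := by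
    intro z
    induction z using Int.induction_on with
    | zero => simp
    | succ i ih =>
      intro y
      rw [add_smul, one_smul, ← add_assoc, h1, ih]
    | pred i ih =>
      intro y
      have := h1 (y + ((-(i : ℤ)) - 1) • e)
      rw [add_assoc, ← add_one_zsmul, sub_add_cancel, ih] at this
      exact this.symm
  funext y
  obtain ⟨z, rfl⟩ := hgen c
  simp [h2]

variable {H : Subgroup G}

/-- A fixed representative of the coset `H * x`. -/
noncomputable def rep (H : Subgroup G) (x : G) : G :=
  (Quotient.mk (QuotientGroup.rightRel H) x).out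

lemma rep_inv : Inv H (rep H) := by
  intro h hh x
  unfold rep
  congr 1
  refine Quotient.sound ?_
  change (QuotientGroup.rightRel H) (h * x) x
  rw [QuotientGroup.rightRel_apply]
  simpa using inv_mem hh

lemma mul_rep_inv_mem (H : Subgroup G) (x : G) : x * (rep H x)⁻¹ ∈ H := by
  have := Quotient.mk_out (s := QuotientGroup.rightRel H) x
  exact QuotientGroup.rightRel_apply.1 this

lemma rep_rep (H : Subgroup G) (x : G) : rep H (rep H x) = rep H x := by
  have h := rep_inv _ (mul_rep_inv_mem H x) (rep H x)
  rw [inv_mul_cancel_right] at h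
  exact h.symm

variable {A : Type*} [AddCommGroup A]

/-- The `φ`-degree of an element, relative to the representative of its coset. -/
noncomputable def deg (φ : H →* Multiplicative A) (x : G) : A :=
  (φ ⟨x * (rep H x)⁻¹, mul_rep_inv_mem H x⟩).toAdd

lemma deg_mul (φ : H →* Multiplicative A) (h : H) (x : G) :
    deg φ (h * x) = (φ h).toAdd + deg φ x := by
  unfold deg
  rw [← toAdd_mul, ← map_mul]
  congr 2
  apply Subtype.ext
  simp [rep_inv (H := H) h h.2 x, mul_assoc]

lemma deg_rep (φ : H →* Multiplicative A) (x : G) : deg φ (rep H x) = 0 := by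
  unfold deg
  have : (⟨rep H x * (rep H (rep H x))⁻¹, mul_rep_inv_mem H _⟩ : H) = 1 :=
    Subtype.ext (by simp [rep_rep])
  rw [this, map_one]; rfl

/-- The key moment induction. -/
lemma moment (S T : Finset G) (M : ι → ι → G → K) (φ : H →* Multiplicative A)
    (e : A) (hgen : ∀ a : A, ∃ z : ℤ, z • e = a) (hG : Good S T M H) (w : ι → G → K)
    (hw : ∀ F : ι → G → K, (∀ i, Inv (φ.ker.map H.subtype) (F i)) →
      pairing S w (star T M F) = 0) :
    ∀ (k : ℕ) (q : A → Subring.center K), Low e k q → ∀ j (f : G → K), Inv H f →
      ∑ x ∈ S, w j x * (q (deg φ x) : K) * f x = 0 := by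
  classical
  intro k
  induction k with
  | zero =>
    intro q hq j f _
    have hq' : q = 0 := by simpa [Low] using hq
    simp [hq']
  | succ k ih =>
    intro q hq j f hf
    refine hG (fun j x => w j x * (q (deg φ x) : K)) ?_ j f hf
    intro F hF
    -- variable version of the induction hypothesis
    have hvar : ∀ (Q : G → A → Subring.center K), Inv H Q → (∀ x, Low e k (Q x)) →
        ∀ j (a : G → K), Inv H a → ∑ x ∈ S, w j x * (Q x (deg φ x) : K) * a x = 0 := by
      intro Q hQ hQlow j a ha
      rw [← Finset.sum_fiberwise_of_maps_to (g := Q) (t := S.image Q)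
        (fun x hx => Finset.mem_image_of_mem Q hx)]
      refine Finset.sum_eq_zero fun q' hq' => ?_
      obtain ⟨x₀, -, rfl⟩ := Finset.mem_image.1 hq'
      rw [Finset.sum_filter]
      refine (Finset.sum_congr rfl fun x _ => ?_).trans
        (ih (Q x₀) (hQlow x₀) j (fun x => if Q x = Q x₀ then a x else 0) ?_)
      · by_cases hx : Q x = Q x₀
        · simp [hx]
        · simp [hx]
      · intro h hh x
        simp only [hQ h hh x, ha h hh x]
    have h0 := hw (fun i y => (q (deg φ y) : K) * F i y) (fun i => by
      rintro _ ⟨h, hh, rfl⟩ y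
      change (q (deg φ ((h : G) * y)) : K) * F i ((h : G) * y) = _
      rw [deg_mul, MonoidHom.mem_ker.1 hh, hF i h h.2]
      simp)
    have hkey : pairing S w (star T M fun i y => (q (deg φ y) : K) * F i y) =
        pairing S (fun j x => w j x * (q (deg φ x) : K)) (star T M F) +
        ∑ j, ∑ i, ∑ g ∈ T, ∑ x ∈ S, w j x *
          ((q (deg φ x + (deg φ (x * g) - deg φ x)) - q (deg φ x) : Subring.center K) : K) *
          (M j i g * F i (x * g)) := by
      have hc : ∀ (a : Subring.center K) (b : K), b * (a : K) = (a : K) * b :=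
        fun a b => Subring.mem_center_iff.1 a.2 b
      simp only [pairing, star, Finset.mul_sum, add_sub_cancel]
      rw [← Finset.sum_add_distrib]
      refine Finset.sum_congr rfl fun j _ => ?_
      rw [Finset.sum_comm (s := S), Finset.sum_comm (s := S), ← Finset.sum_add_distrib]
      refine Finset.sum_congr rfl fun i _ => ?_
      rw [Finset.sum_comm (s := S), Finset.sum_comm (s := S), ← Finset.sum_add_distrib]
      refine Finset.sum_congr rfl fun g _ => ?_
      rw [← Finset.sum_add_distrib]
      refine Finset.sum_congr rfl fun x _ => ?_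
      rw [← mul_assoc (M j i g) (q _ : K) (F i (x * g)), hc, AddSubgroupClass.coe_sub]
      simp only [mul_sub, sub_mul, mul_assoc]
      abel
    rw [h0] at hkey
    have hrest : ∑ j, ∑ i, ∑ g ∈ T, ∑ x ∈ S, w j x *
          ((q (deg φ x + (deg φ (x * g) - deg φ x)) - q (deg φ x) : Subring.center K) : K) *
          (M j i g * F i (x * g)) = 0 := by
      refine Finset.sum_eq_zero fun j _ => Finset.sum_eq_zero fun i _ =>
        Finset.sum_eq_zero fun g _ => ?_
      refine hvar (fun x y => q (y + (deg φ (x * g) - deg φ x)) - q y) ?_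
        (fun x => low_shift e hgen hq _) j (fun x => M j i g * F i (x * g)) ?_
      · intro h hh x
        funext y
        simp only
        rw [mul_assoc, deg_mul φ ⟨h, hh⟩, deg_mul φ ⟨h, hh⟩, add_sub_add_left_eq_sub]
      · intro h hh x
        simp only [mul_assoc, hF i h hh]
    rw [hrest, add_zero] at hkey
    exact hkey.symm

/-- Passing from moments to the kernel, for `A = ℤ`. -/
lemma separate_int (S : Finset G) (φ : H →* Multiplicative ℤ)
    (hφ : Function.Surjective φ) (w : G → K)
    (hm : ∀ (k : ℕ) (q : ℤ → Subring.center K), Low 1 k q → ∀ f : G → K, Inv H f →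
      ∑ x ∈ S, w x * (q (deg φ x) : K) * f x = 0)
    (f : G → K) (hf : Inv (φ.ker.map H.subtype) f) : ∑ x ∈ S, w x * f x = 0 := by
  classical
  obtain ⟨lo, hlo⟩ := (S.image (deg φ)).bddBelow
  obtain ⟨hi, hhi⟩ := (S.image (deg φ)).bddAbove
  replace hlo : ∀ x ∈ S, lo ≤ deg φ x := fun x hx => hlo (by simpa using ⟨x, hx, rfl⟩)
  replace hhi : ∀ x ∈ S, deg φ x ≤ hi := fun x hx => hhi (by simpa using ⟨x, hx, rfl⟩)
  let L₀ : ℕ := (hi - lo + 1).toNat
  suffices h : ∀ d L : ℕ, L + d = L₀ → ∀ f : G → K, Inv (φ.ker.map H.subtype) f →
      (∀ x ∈ S, deg φ x < lo + L → f x = 0) → ∑ x ∈ S, w x * f x = 0 by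
    exact h L₀ 0 (by omega) f hf fun x hx h => absurd (hlo x hx) (by simp at h; omega)
  intro d
  induction d with
  | zero =>
    intro L hL f _ hz
    refine Finset.sum_eq_zero fun x hx => ?_
    rw [hz x hx, mul_zero]
    have := hhi x hx
    omega
  | succ d ih =>
    intro L hL f hf hz
    let q : ℤ → Subring.center K := fun y => ((Ring.choose (y - lo) L : ℤ) : Subring.center K)
    have hq : Low 1 (L + 1) q := by
      have : ∀ m : ℕ, ∀ L : ℕ, L < m →
          (fwdDiff (1 : ℤ))^[m] (fun y : ℤ => ((Ring.choose (y - lo) L : ℤ) : Subring.center K))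
            = 0 := by
        intro m
        induction m with
        | zero => intro L h; omega
        | succ m ihm =>
          intro L hLm
          rw [Function.iterate_succ_apply]
          rcases L with _ | L
          · have hc : fwdDiff (1 : ℤ) (fun y : ℤ =>
                ((Ring.choose (y - lo) 0 : ℤ) : Subring.center K)) = 0 := by
              funext y; simp [fwdDiff, Ring.choose_zero_right]
            rw [hc]
            clear ihm hc hLm
            induction m with
            | zero => rfl
            | succ m ih' =>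
              rw [Function.iterate_succ_apply]
              convert ih' using 2
              funext y; simp [fwdDiff]
          · convert ihm L (by omega) using 2
            funext y
            simp only [fwdDiff]
            rw [← Int.cast_sub, show y + 1 - lo = (y - lo) + 1 by ring, Ring.choose_succ_succ]
            simp
      exact this _ _ (Nat.lt_succ_self L)
    obtain ⟨s, hs⟩ : ∃ s : H, φ s = Multiplicative.ofAdd (lo + L) := hφ _
    let a : G → K := fun x => f ((s : G) * rep H x)
    have ha : Inv H a := fun h hh x => by simp only [a, rep_inv h hh x]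
    have h1 := hm _ q hq a ha
    have h2 : ∑ x ∈ S, w x * (f x - (q (deg φ x) : K) * a x) = 0 := by
      refine ih (L + 1) (by omega) (fun x => f x - (q (deg φ x) : K) * a x) ?_ ?_
      · rintro _ ⟨h, hh, rfl⟩ x
        simp only
        rw [hf _ ⟨h, hh, rfl⟩ x, Subgroup.coe_subtype, deg_mul, MonoidHom.mem_ker.1 hh,
          toAdd_one, zero_add, ha h h.2]
      · intro x hx hlt
        have hn := hlo x hx
        rcases lt_or_eq_of_le (show deg φ x ≤ lo + L by omega) with hlt' | heq
        · obtain ⟨n, hn'⟩ := Int.eq_ofNat_of_zero_le (show 0 ≤ deg φ x - lo by omega)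
          have : q (deg φ x) = 0 := by
            simp only [q, hn']
            rw [Ring.choose_natCast, Nat.choose_eq_zero_of_lt (by omega)]
            simp
          rw [hz x hx hlt', this]
          simp
        · have hq1 : q (deg φ x) = 1 := by
            simp only [q, heq, add_sub_cancel_left]
            rw [Ring.choose_natCast, Nat.choose_self]
            simp
          have hax : a x = f x := by
            have hmem : (s : G) * rep H x * x⁻¹ ∈ φ.ker.map H.subtype := by
              refine ⟨s * ⟨x * (rep H x)⁻¹, mul_rep_inv_mem H x⟩⁻¹, ?_, by simp [mul_assoc]⟩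
              refine MonoidHom.mem_ker.2 ?_
              apply Multiplicative.toAdd.injective
              rw [map_mul, map_inv, toAdd_mul, toAdd_inv, hs, toAdd_one]
              change lo + (L : ℤ) + -deg φ x = 0
              omega
            have := hf _ hmem x
            simpa [a] using this
          simp [hq1, hax]
    simp only [mul_sub, Finset.sum_sub_distrib, ← mul_assoc] at h2
    rwa [h1, sub_zero] at h2

lemma low_zmod (p : ℕ) [Fact p.Prime] [CharP K p] (q : ZMod p → Subring.center K) :
    Low 1 p q := by
  funext y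
  rw [fwdDiff_iter_eq_sum_shift]
  have hp : (p : Subring.center K) = 0 := Subtype.ext (by simp)
  have hp0 : p ≠ 0 := (Fact.out : p.Prime).ne_zero
  rw [Finset.sum_eq_add (0 : ℕ) p (Ne.symm hp0)]
  · have h1 : (-1 : ℤ) ^ p • q y + q y = 0 := by
      rcases (Fact.out : p.Prime).eq_two_or_odd' with h | h
      · subst h
        have : (2 : Subring.center K) = 0 := by exact_mod_cast hp
        simp [← two_mul, this]
      · simp [h.neg_one_pow]
    simpa using h1
  · intro k hk hne
    rw [Finset.mem_range] at hk
    obtain ⟨c, hc⟩ := (Fact.out : p.Prime).dvd_choose_self hne.1 (by omega)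
    rw [zsmul_eq_mul, hc]
    push_cast
    simp [hp]
  · simp
  · simp

/-- Passing from moments to the kernel, for `A = ZMod p`, in characteristic `p`. -/
lemma separate_zmod (p : ℕ) [Fact p.Prime] [CharP K p] (S : Finset G)
    (φ : H →* Multiplicative (ZMod p)) (hφ : Function.Surjective φ) (w : G → K)
    (hm : ∀ (k : ℕ) (q : ZMod p → Subring.center K), Low 1 k q → ∀ f : G → K, Inv H f →
      ∑ x ∈ S, w x * (q (deg φ x) : K) * f x = 0)
    (f : G → K) (hf : Inv (φ.ker.map H.subtype) f) : ∑ x ∈ S, w x * f x = 0 := by
  classical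
  choose s hs using fun b : ZMod p => hφ (Multiplicative.ofAdd b)
  have key : ∀ b : ZMod p,
      ∑ x ∈ S, w x * ((if deg φ x = b then (1 : Subring.center K) else 0 : Subring.center K) : K)
        * f ((s b : G) * rep H x) = 0 := fun b =>
    hm p (fun y => if y = b then 1 else 0) (low_zmod p _) (fun x => f ((s b : G) * rep H x))
      (fun h hh x => by simp only [rep_inv h hh x])
  rw [← Finset.sum_eq_zero (s := (Finset.univ : Finset (ZMod p))) fun b _ => key b,
    Finset.sum_comm]
  refine Finset.sum_congr rfl fun x _ => ?_
  rw [Finset.sum_eq_single (deg φ x)]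
  · have hmem : (s (deg φ x) : G) * rep H x * x⁻¹ ∈ φ.ker.map H.subtype := by
      refine ⟨s (deg φ x) * ⟨x * (rep H x)⁻¹, mul_rep_inv_mem H x⟩⁻¹, ?_, by simp [mul_assoc]⟩
      refine MonoidHom.mem_ker.2 ?_
      apply Multiplicative.toAdd.injective
      rw [map_mul, map_inv, toAdd_mul, toAdd_inv, hs, toAdd_one]
      change deg φ x + -deg φ x = 0
      simp
    have := hf _ hmem x
    simp only [inv_mul_cancel_right] at this
    simp [this]
  · intro b _ hb
    simp [Ne.symm hb]
  · simp

end Vale.Agent.P194
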