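import Vale.Agent.P194.Defs
import Vale.Agent.P194.Separation
import Mathlib.Algebra.MonoidAlgebra.MapDomain
import Mathlib.Data.Matrix.Basic
import Mathlib.GroupTheory.QuotientGroup.Defs
import Mathlib.Algebra.CharP.Lemmas
import Mathlib.GroupTheory.FreeGroup.NielsenSchreier
import Mathlib.Algebra.BigOperators.Finsupp.Basic

/-! Stable finiteness passes through locally indicable kernels. -/

namespace Vale.Agent.P194

open MonoidAlgebra

section descent

variable {K : Type*} [Ring K] {G : Type*} [Group G] {ι : Type*} [Fintype ι] [DecidableEq ι]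

/-- A value of `F` at some point of `U` in the same right `H`-coset. -/
noncomputable def coarsen (U : Finset G) (H : Subgroup G) (F : G → K) (x : G) : K :=
  open Classical in
  if h : ∃ u ∈ U, (Quotient.mk (QuotientGroup.rightRel H) u) = Quotient.mk _ x then F h.choose
  else 0

lemma coarsen_inv (U : Finset G) (H : Subgroup G) (F : G → K) : Inv H (coarsen U H F) := by
  classical
  intro h hh x
  have e : Quotient.mk (QuotientGroup.rightRel H) (h * x) = Quotient.mk _ x := by
    refine Quotient.sound ?_
    change (QuotientGroup.rightRel H) (h * x) x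
    rw [QuotientGroup.rightRel_apply]
    simpa using inv_mem hh
  simp only [coarsen, e]

omit [DecidableEq ι] in
lemma descend (S T : Finset G) (M : ι → ι → G → K) (N : Subgroup G)
    (hbase : Good S T M N)
    (hstep : ∀ H : Subgroup G, H ≤ N → H.FG → H ≠ ⊥ → Good S T M H →
      ∃ H' : Subgroup G, H' < H ∧ Good S T M H') :
    Good S T M ⊥ := by
  classical
  suffices h : ∀ n (H : Subgroup G), H ≤ N → Good S T M H →
      ((S ×ˢ S).filter fun p => p.1 * p.2⁻¹ ∈ H).card = n → Good S T M ⊥ from
    h _ N le_rfl hbase rfl
  intro n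
  induction n using Nat.strong_induction_on with
  | _ n ih =>
    intro H hHN hG hn
    set P := (S ×ˢ S).filter fun p => p.1 * p.2⁻¹ ∈ H with hP
    let gen : Finset G := P.image fun p => p.1 * p.2⁻¹
    let H₀ : Subgroup G := Subgroup.closure (gen : Set G)
    have hle : H₀ ≤ H := by
      rw [Subgroup.closure_le]
      intro a ha
      obtain ⟨p, hp, rfl⟩ := Finset.mem_image.1 ha
      exact (Finset.mem_filter.1 hp).2
    have hagree : ∀ (F : G → K), Inv H₀ F → ∀ x ∈ S, coarsen S H F x = F x := by
      intro F hF x hx
      have hex : ∃ u ∈ S, Quotient.mk (QuotientGroup.rightRel H) u = Quotient.mk _ x :=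
        ⟨x, hx, rfl⟩
      rw [coarsen, dif_pos hex]
      obtain ⟨hu, he⟩ := hex.choose_spec
      generalize hex.choose = u at hu he ⊢
      have hmem : x * u⁻¹ ∈ H := QuotientGroup.rightRel_apply.1 (Quotient.exact he)
      have : x * u⁻¹ ∈ H₀ := Subgroup.subset_closure <| Finset.mem_image.2
        ⟨(x, u), Finset.mem_filter.2 ⟨Finset.mem_product.2 ⟨hx, hu⟩, hmem⟩, rfl⟩
      have := hF _ this u
      rw [inv_mul_cancel_right] at this
      exact this.symm
    have hG₀ : Good S T M H₀ := by
      intro w hw j f hf
      have hw' : ∀ F : ι → G → K, (∀ i, Inv H (F i)) → pairing S w (star T M F) = 0 :=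
        fun F hF => hw F fun i h hh x => hF i h (hle hh) x
      refine Eq.trans (Finset.sum_congr rfl fun x hx => ?_)
        (hG w hw' j (coarsen S H f) (coarsen_inv S H f))
      rw [hagree f hf x hx]
    by_cases hbot : H₀ = ⊥
    · rwa [hbot] at hG₀
    obtain ⟨H', hlt, hG'⟩ := hstep H₀ (hle.trans hHN) ⟨gen, rfl⟩ hbot hG₀
    refine ih _ ?_ H' (hlt.le.trans (hle.trans hHN)) hG' rfl
    rw [← hn]
    refine Finset.card_lt_card ?_
    rw [Finset.ssubset_iff_of_subset]
    · by_contra hall
      push Not at hall
      refine not_le_of_gt hlt ?_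
      rw [Subgroup.closure_le]
      intro a ha
      obtain ⟨p, hp, rfl⟩ := Finset.mem_image.1 ha
      exact (Finset.mem_filter.1 (hall p hp)).2
    · intro p hp
      obtain ⟨hpU, hpH⟩ := Finset.mem_filter.1 hp
      exact Finset.mem_filter.2 ⟨hpU, hle (hlt.le hpH)⟩

end descent

section algebra

variable {K : Type*} [Ring K] {G : Type*} [Group G]

/-- Pairing of a group algebra element with a function. -/
noncomputable def pair (x : MonoidAlgebra K G) (f : G → K) : K :=
  x.coeff.sum fun g r => r * f g

lemma pair_single (g : G) (r : K) (f : G → K) : pair (single g r) f = r * f g := by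
  simp [pair]

lemma pair_add (x y : MonoidAlgebra K G) (f : G → K) :
    pair (x + y) f = pair x f + pair y f := by
  unfold pair
  rw [coeff_add]
  exact Finsupp.sum_add_index' (by simp) (by intros; simp [add_mul])

lemma pair_zero (f : G → K) : pair (0 : MonoidAlgebra K G) f = 0 := by
  simp [pair]

lemma pair_sum {α : Type*} (s : Finset α) (x : α → MonoidAlgebra K G) (f : G → K) :
    pair (∑ a ∈ s, x a) f = ∑ a ∈ s, pair (x a) f :=
  map_sum (⟨⟨fun x => pair x f, pair_zero f⟩, fun x y => pair_add x y f⟩ :
    MonoidAlgebra K G →+ K) x s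

lemma pair_mul (x y : MonoidAlgebra K G) (f : G → K) :
    pair (x * y) f = pair x (fun a => pair y fun b => f (a * b)) := by
  induction x using MonoidAlgebra.induction_linear with
  | zero => simp [pair_zero]
  | add a b ha hb => simp [add_mul, pair_add, ha, hb]
  | single a r =>
    rw [pair_single]
    induction y using MonoidAlgebra.induction_linear with
    | zero => simp [pair_zero]
    | add u v hu hv => simp [mul_add, pair_add, hu, hv]
    | single b s => simp [single_mul_single, pair_single, mul_assoc]

lemma pair_eq_sum (x : MonoidAlgebra K G) (f : G → K) (S : Finset G)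
    (hS : x.coeff.support ⊆ S) : pair x f = ∑ g ∈ S, x.coeff g * f g :=
  Finsupp.sum_of_support_subset _ hS _ (by simp)

lemma pair_mapDomain {Q : Type*} [Group Q] (π : G →* Q) (x : MonoidAlgebra K G) (f : Q → K) :
    pair (mapDomainRingHom K π x) f = pair x (f ∘ π) := by
  induction x using MonoidAlgebra.induction_linear with
  | zero => simp [pair_zero]
  | add a b ha hb => rw [map_add, pair_add, pair_add, ha, hb]
  | single a r => simp [pair_single]

/-- A matrix congruent to `1` modulo `N` is injective, if the descent step is available. -/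
lemma eq_zero_of_mul_eq_zero {n : ℕ} (N : Subgroup G) [N.Normal]
    (M : Matrix (Fin n) (Fin n) (MonoidAlgebra K G))
    (hM : M.map (mapDomainRingHom K (QuotientGroup.mk' N)) = 1)
    (hstep : ∀ (S T : Finset G) (m : Fin n → Fin n → G → K) (H : Subgroup G),
      H ≤ N → H.FG → H ≠ ⊥ → Good S T m H → ∃ H' : Subgroup G, H' < H ∧ Good S T m H')
    (v : Fin n → MonoidAlgebra K G) (hv : ∀ i, ∑ j, v j * M j i = 0) : v = 0 := by
  classical
  let S : Finset G := Finset.univ.biUnion fun j => (v j).coeff.support
  let T : Finset G := Finset.univ.biUnion fun p : Fin n × Fin n => (M p.1 p.2).coeff.support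
  let m : Fin n → Fin n → G → K := fun j i g => (M j i).coeff g
  let w : Fin n → G → K := fun j x => (v j).coeff x
  have hT : ∀ j i, (M j i).coeff.support ⊆ T := fun j i =>
    Finset.subset_biUnion_of_mem (fun p : Fin n × Fin n => (M p.1 p.2).coeff.support)
      (Finset.mem_univ (j, i))
  have hS : ∀ j, (v j).coeff.support ⊆ S := fun j =>
    Finset.subset_biUnion_of_mem (fun j => (v j).coeff.support) (Finset.mem_univ j)
  have hbase : Good S T m N := by
    intro u hu j f hf
    have hst : star T m (Pi.single j f) = Pi.single j f := by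
      funext j' x
      have hlift : ∀ g : G, f (x * g) =
          (fun q : G ⧸ N => f (x * q.out)) (QuotientGroup.mk' N g) := by
        intro g
        obtain ⟨c, hc⟩ := QuotientGroup.mk_out_eq_mul N g
        simp only [QuotientGroup.mk'_apply, hc]
        have hconj : x * g * c * (x * g)⁻¹ ∈ N := Subgroup.Normal.conj_mem ‹_› _ c.2 _
        have := hf _ hconj (x * g)
        rw [inv_mul_cancel_right] at this
        rw [← mul_assoc]
        exact this.symm
      have h1 : ∑ g ∈ T, m j' j g * f (x * g) = if j' = j then f x else 0 := by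
        rw [← pair_eq_sum (M j' j) (fun g => f (x * g)) T (hT j' j)]
        rw [show (fun g => f (x * g)) =
          (fun q : G ⧸ N => f (x * q.out)) ∘ QuotientGroup.mk' N from funext hlift]
        refine (pair_mapDomain (QuotientGroup.mk' N) (M j' j) _).symm.trans ?_
        have : mapDomainRingHom K (QuotientGroup.mk' N) (M j' j) =
            (1 : Matrix (Fin n) (Fin n) (MonoidAlgebra K (G ⧸ N))) j' j := by
          rw [← hM]; rfl
        rw [this, Matrix.one_apply]
        by_cases h : j' = j
        · rw [if_pos h, if_pos h, one_def, pair_single, one_mul]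
          simpa using (hlift 1).symm
        · rw [if_neg h, if_neg h, pair_zero]
      simp only [star]
      rw [Finset.sum_eq_single j]
      · rw [Pi.single_eq_same, h1]
        by_cases h : j' = j
        · subst h; simp
        · simp [h]
      · intro i _ hi; simp [hi]
      · simp
    have h := hu (Pi.single j f) (fun i => by
      by_cases h : i = j
      · subst h; simpa using hf
      · simp [h, Inv])
    rw [hst] at h
    simp only [pairing] at h
    rw [Finset.sum_eq_single j] at h
    · simpa using h
    · intro i _ hi; simp [hi]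
    · simp
  have hbot : Good S T m ⊥ :=
    descend S T m N hbase (fun H => hstep S T m H)
  have hzero : ∀ F : Fin n → G → K, pairing S w (star T m F) = 0 := by
    intro F
    have : pairing S w (star T m F) = ∑ i, pair (∑ j, v j * M j i) (F i) := by
      simp only [pair_sum, pair_mul, pairing, star, Finset.mul_sum]
      rw [Finset.sum_comm (γ := Fin n) (s := Finset.univ) (t := Finset.univ)]
      refine Finset.sum_congr rfl fun j _ => ?_
      rw [Finset.sum_comm]
      refine Finset.sum_congr rfl fun i _ => ?_
      rw [pair_eq_sum (v j) _ S (hS j)]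
      refine Finset.sum_congr rfl fun x _ => ?_
      rw [pair_eq_sum (M j i) _ T (hT j i), Finset.mul_sum]
    simp [this, hv, pair_zero]
  funext j
  refine coeff_injective ?_
  ext x
  by_cases hx : x ∈ S
  · have := hbot w (fun F _ => hzero F) j (fun y => if y = x then 1 else 0) (by
      intro h hh y
      simp [Subgroup.mem_bot.1 hh])
    simpa [hx, w] using this
  · simpa using Finsupp.notMem_support_iff.1 fun h => hx (hS j h)

/-- A descent step along a kernel gives stable finiteness of the extension. -/
lemma stablyFinite_of_step (N : Subgroup G) [N.Normal]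
    (hstep : ∀ (n : ℕ) (S T : Finset G) (m : Fin n → Fin n → G → K) (H : Subgroup G),
      H ≤ N → H.FG → H ≠ ⊥ → Good S T m H → ∃ H' : Subgroup G, H' < H ∧ Good S T m H')
    (hQ : IsStablyFiniteRing (MonoidAlgebra K (G ⧸ N))) :
    IsStablyFiniteRing (MonoidAlgebra K G) := by
  refine ⟨fun n => ⟨fun {A B} hAB => ?_⟩⟩
  let f := (mapDomainRingHom K (QuotientGroup.mk' N)).mapMatrix (m := Fin n)
  have hf : f (B * A) = 1 := by
    have h : f A * f B = 1 := by rw [← map_mul, hAB, map_one]
    rw [map_mul]
    exact (hQ.isDedekindFiniteMonoid n).mul_eq_one_symm h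
  have hE : (1 - B * A) * (B * A) = 0 := by
    rw [sub_mul, one_mul, Matrix.mul_assoc B A, ← Matrix.mul_assoc A B A, hAB, Matrix.one_mul,
      sub_self]
  have : 1 - B * A = 0 := by
    funext r
    refine eq_zero_of_mul_eq_zero N (B * A) hf (hstep n) ((1 - B * A) r) fun i => ?_
    exact (Matrix.mul_apply.symm.trans (congrFun (congrFun hE r) i))
  exact (sub_eq_zero.1 this).symm

end algebra

section indicable

variable (K : Type*) [DivisionRing K] {G : Type*} [Group G]

lemma step_of_indicable (N : Subgroup G)
    (hN : IsLocallyIndicable 0 N ∨ IsLocallyIndicable (ringChar K) N) (n : ℕ)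
    (S T : Finset G) (m : Fin n → Fin n → G → K) (H : Subgroup G)
    (hle : H ≤ N) (hfg : H.FG) (hne : H ≠ ⊥) (hgood : Good S T m H) :
    ∃ H' : Subgroup G, H' < H ∧ Good S T m H' := by
  obtain ⟨p, hp, hI⟩ : ∃ p, (p = 0 ∨ p = ringChar K) ∧ IsLocallyIndicable p N :=
    hN.elim (fun h => ⟨0, .inl rfl, h⟩) (fun h => ⟨_, .inr rfl, h⟩)
  let e := Subgroup.subgroupOfEquivOfLe hle
  have hfg' : (H.subgroupOf N).FG := by
    rw [← Group.fg_iff_subgroup_fg] at hfg ⊢
    exact Group.fg_of_surjective (f := e.symm.toMonoidHom) e.symm.surjective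
  have hne' : H.subgroupOf N ≠ ⊥ := by
    intro h
    refine hne (le_bot_iff.1 fun x hx => ?_)
    have : (⟨x, hle hx⟩ : N) ∈ H.subgroupOf N := hx
    rw [h, Subgroup.mem_bot] at this
    exact Subgroup.mem_bot.2 (congrArg Subtype.val this)
  obtain ⟨φ₀, hφ₀⟩ := hI _ hfg' hne'
  let φ : H →* Multiplicative (ZMod p) := φ₀.comp e.symm.toMonoidHom
  have hφ : Function.Surjective φ := hφ₀.comp e.symm.surjective
  have hgen : ∀ a : ZMod p, ∃ z : ℤ, z • (1 : ZMod p) = a := fun a => by
    obtain ⟨z, rfl⟩ := ZMod.intCast_surjective a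
    exact ⟨z, by simp⟩
  refine ⟨φ.ker.map H.subtype, ?_, ?_⟩
  · refine lt_of_le_of_ne (Subgroup.map_subtype_le _) fun h => ?_
    have hp1 : p ≠ 1 := by
      rcases hp with rfl | rfl
      · exact zero_ne_one
      · rcases CharP.char_is_prime_or_zero K (ringChar K) with hpr | hpr
        · exact hpr.ne_one
        · rw [hpr]; exact zero_ne_one
    have : Nontrivial (ZMod p) := by
      rcases p with _ | _ | p
      · exact inferInstanceAs (Nontrivial ℤ)
      · exact absurd rfl hp1
      · exact inferInstanceAs (Nontrivial (Fin (p + 2)))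
    obtain ⟨a, ha⟩ := exists_ne (1 : Multiplicative (ZMod p))
    obtain ⟨x, rfl⟩ := hφ a
    have hx : (x : G) ∈ φ.ker.map H.subtype := by rw [h]; exact x.2
    obtain ⟨y, hy, hyx⟩ := hx
    exact ha (Subtype.ext hyx ▸ MonoidHom.mem_ker.1 hy)
  · intro w hw j f hf
    have hm := fun k q hq f hf => moment S T m φ 1 hgen hgood w hw k q hq j f hf
    by_cases h0 : p = 0
    · subst h0
      exact separate_int (H := H) S φ hφ (w j) hm f hf
    · have hpc : p = ringChar K := hp.resolve_left h0
      have : CharP K p := hpc ▸ ringChar.charP K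
      have := Fact.mk ((CharP.char_is_prime_or_zero K p).resolve_right h0)
      exact separate_zmod p S φ hφ (w j) hm f hf

/-- The extension theorem. -/
theorem stablyFinite_extension (N : Subgroup G) [N.Normal]
    (hN : IsLocallyIndicable 0 N ∨ IsLocallyIndicable (ringChar K) N)
    (hQ : IsStablyFiniteRing (MonoidAlgebra K (G ⧸ N))) :
    IsStablyFiniteRing (MonoidAlgebra K G) :=
  stablyFinite_of_step N (step_of_indicable K N hN) hQ

end indicable

/-- Free groups are locally indicable. -/
theorem isLocallyIndicable_of_isFreeGroup (F : Type*) [Group F] [IsFreeGroup F] :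
    IsLocallyIndicable 0 F := by
  intro H _ hne
  have hgen : Nonempty (IsFreeGroup.Generators H) := by
    by_contra h
    rw [not_nonempty_iff] at h
    refine hne ((Subgroup.eq_bot_iff_forall H).2 fun x hx => ?_)
    have : MonoidHom.id H = 1 := IsFreeGroup.ext_hom fun a => isEmptyElim a
    exact congrArg Subtype.val (DFunLike.congr_fun this (⟨x, hx⟩ : H))
  obtain ⟨a₀⟩ := hgen
  refine ⟨IsFreeGroup.lift fun _ => Multiplicative.ofAdd (1 : ZMod 0), fun y => ?_⟩
  refine ⟨IsFreeGroup.of a₀ ^ (show ℤ from y.toAdd), ?_⟩
  rw [map_zpow, IsFreeGroup.lift_of]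
  refine Multiplicative.toAdd.injective ?_
  rw [toAdd_zpow]
  exact mul_one (show ℤ from y.toAdd)

end Vale.Agent.P194
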