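import Vale.Agent.P194.DefsOrder
import Mathlib.Algebra.MonoidAlgebra.Defs
import Mathlib.Data.Matrix.Basic
import Mathlib.GroupTheory.QuotientGroup.Defs
import Mathlib.RingTheory.Noetherian.Basic
import Mathlib.RingTheory.Finiteness.Finsupp
import Mathlib.Order.WellFoundedSet
import Mathlib.LinearAlgebra.Matrix.Defs
import Mathlib.Algebra.BigOperators.Finsupp.Basic

/-! Stable finiteness for extensions with bi-orderable quotient and Noetherian group algebra of
the kernel: the kernels of the powers of a surjective operator have stabilising leading modules. -/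

namespace Vale.Agent.P194

open MonoidAlgebra

namespace Ordered

section order

variable {Q : Type*} [Group Q] [LinearOrder Q]

/-- The products of lists with entries in `S`. -/
def words (S : Set Q) : Set Q := List.prod '' {l : List Q | ∀ x ∈ l, x ∈ S}

variable (hL : ∀ a b c : Q, b < c → a * b < a * c) (hR : ∀ a b c : Q, b < c → b * a < c * a)

include hL in
lemma mul_le_left {a b c : Q} (h : b ≤ c) : a * b ≤ a * c :=
  h.eq_or_lt.elim (fun e => e ▸ le_rfl) fun h => (hL a b c h).le

include hR in
lemma mul_le_right {a b c : Q} (h : b ≤ c) : b * a ≤ c * a :=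
  h.eq_or_lt.elim (fun e => e ▸ le_rfl) fun h => (hR a b c h).le

include hL hR in
lemma one_le_mul' {a b : Q} (ha : 1 ≤ a) (hb : 1 ≤ b) : 1 ≤ a * b :=
  ha.trans (by simpa using mul_le_left hL (a := a) hb)

include hL hR in
lemma one_le_prod {l : List Q} (h : ∀ x ∈ l, 1 ≤ x) : 1 ≤ l.prod := by
  induction l with
  | nil => simp
  | cons a l ih =>
    rw [List.prod_cons]
    exact one_le_mul' hL hR (h a (by simp)) (ih fun x hx => h x (by simp [hx]))

include hL hR in
lemma prod_le_prod {l₁ l₂ : List Q} (h : List.SublistForall₂ (· ≤ ·) l₁ l₂)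
    (h₂ : ∀ x ∈ l₂, 1 ≤ x) : l₁.prod ≤ l₂.prod := by
  induction h with
  | nil => simpa using one_le_prod hL hR h₂
  | @cons a₁ a₂ l₁ l₂ hab _ ih =>
    rw [List.prod_cons, List.prod_cons]
    exact (mul_le_left hL (ih fun x hx => h₂ x (by simp [hx]))).trans (mul_le_right hR hab)
  | @cons_right a l₁ l₂ _ ih =>
    rw [List.prod_cons]
    refine (ih fun x hx => h₂ x (by simp [hx])).trans ?_
    simpa using mul_le_right hR (a := l₂.prod) (h₂ a (by simp))

include hL hR in
lemma isPWO_words {S : Set Q} (hS : S.IsPWO) (h1 : ∀ x ∈ S, 1 ≤ x) : (words S).IsPWO := by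
  refine Set.PartiallyWellOrderedOn.image_of_monotone_on
    (Set.PartiallyWellOrderedOn.partiallyWellOrderedOn_sublistForall₂ (· ≤ ·) hS)
    fun l₁ _ l₂ hl₂ h => prod_le_prod hL hR h fun x hx => h1 x (hl₂ x hx)

omit [LinearOrder Q] in
lemma one_mem_words (S : Set Q) : (1 : Q) ∈ words S := ⟨[], by simp, rfl⟩

omit [LinearOrder Q] in
lemma mul_mem_words {S : Set Q} {u s : Q} (hu : u ∈ words S) (hs : s ∈ S) :
    u * s ∈ words S := by
  obtain ⟨l, hl, rfl⟩ := hu
  exact ⟨l ++ [s], fun x hx => (List.mem_append.1 hx).elim (hl x) fun h => by simp_all, by simp⟩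

include hL hR in
lemma finite_fibre {W S : Set Q} (hW : W.IsPWO) (hS : S.IsPWO) (r : Q) :
    {q | q ∈ W ∧ q⁻¹ * r ∈ S}.Finite := by
  by_contra hinf
  let e := Set.Infinite.natEmbedding _ hinf
  obtain ⟨g, hg⟩ := hW.exists_monotone_subseq (f := fun i => (e i : Q)) fun i => (e i).2.1
  obtain ⟨g', hg'⟩ := hS.exists_monotone_subseq (f := fun i => (e (g i) : Q)⁻¹ * r)
    fun i => (e (g i)).2.2
  have hlt : g (g' 0) < g (g' 1) := g.strictMono (g'.strictMono one_pos)
  have h1 : (e (g (g' 0)) : Q) ≤ e (g (g' 1)) := hg (g'.monotone zero_le_one)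
  have h2 : (e (g (g' 0)) : Q)⁻¹ * r ≤ (e (g (g' 1)) : Q)⁻¹ * r := hg' zero_le_one
  rcases h1.eq_or_lt with h | h
  · exact hlt.ne (e.injective (Subtype.ext h))
  · refine not_lt_of_ge h2 (hR r _ _ ?_)
    have := hR (e (g (g' 1)) : Q)⁻¹ _ _ (hL (e (g (g' 0)) : Q)⁻¹ _ _ h)
    simpa [mul_assoc] using this

end order

section operator

variable {K : Type*} [Ring K] {G : Type*} [Group G] {n : ℕ}

/-- Pairing with the coefficients on the right. -/
noncomputable def pairR (y : MonoidAlgebra K G) (h : G → K) : K :=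
  y.coeff.sum fun g r => h g * r

lemma pairR_single (g : G) (r : K) (h : G → K) : pairR (single g r) h = h g * r := by
  simp [pairR]

lemma pairR_zero (h : G → K) : pairR (0 : MonoidAlgebra K G) h = 0 := by simp [pairR]

lemma pairR_add (x y : MonoidAlgebra K G) (h : G → K) :
    pairR (x + y) h = pairR x h + pairR y h := by
  simp only [pairR, coeff_add]
  exact Finsupp.sum_add_index' (by simp) (by intros; simp [mul_add])

lemma pairR_sum {α : Type*} (s : Finset α) (x : α → MonoidAlgebra K G) (h : G → K) :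
    pairR (∑ a ∈ s, x a) h = ∑ a ∈ s, pairR (x a) h :=
  map_sum (⟨⟨fun x => pairR x h, pairR_zero h⟩, fun x y => pairR_add x y h⟩ :
    MonoidAlgebra K G →+ K) x s

lemma pairR_finsetSum {α : Type*} (y : MonoidAlgebra K G) (s : Finset α) (h : α → G → K) :
    pairR y (fun g => ∑ a ∈ s, h a g) = ∑ a ∈ s, pairR y (h a) := by
  simp only [pairR, Finsupp.sum, Finset.sum_mul]
  exact Finset.sum_comm

lemma pairR_mul (y z : MonoidAlgebra K G) (h : G → K) :
    pairR (y * z) h = pairR z (fun b => pairR y fun a => h (a * b)) := by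
  induction z using MonoidAlgebra.induction_linear with
  | zero => simp [pairR_zero]
  | add a b ha hb => simp [mul_add, pairR_add, ha, hb]
  | single b s =>
    rw [pairR_single]
    induction y using MonoidAlgebra.induction_linear with
    | zero => simp [pairR_zero]
    | add u v hu hv => simp [add_mul, pairR_add, hu, hv]
    | single a r => simp [single_mul_single, pairR_single, mul_assoc]

lemma coeff_mul_eq (y z : MonoidAlgebra K G) (x : G) :
    (y * z).coeff x = pairR z fun g => y.coeff (x * g⁻¹) := by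
  induction z using MonoidAlgebra.induction_linear with
  | zero => simp [pairR_zero]
  | add a b ha hb => simp [mul_add, pairR_add, ha, hb]
  | single g r => rw [pairR_single, coeff_mul_single_apply]

/-- Right multiplication of a row of functions by a matrix over the group algebra. -/
noncomputable def op (M : Matrix (Fin n) (Fin n) (MonoidAlgebra K G))
    (f : Fin n → G → K) : Fin n → G → K :=
  fun i x => ∑ j, pairR (M j i) fun g => f j (x * g⁻¹)

lemma op_mul (A B : Matrix (Fin n) (Fin n) (MonoidAlgebra K G)) (f : Fin n → G → K) :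
    op (A * B) f = op B (op A f) := by
  funext i x
  simp only [op, Matrix.mul_apply, pairR_sum, pairR_mul, pairR_finsetSum, mul_inv_rev, mul_assoc]
  exact Finset.sum_comm

lemma op_one (f : Fin n → G → K) :
    op (1 : Matrix (Fin n) (Fin n) (MonoidAlgebra K G)) f = f := by
  funext i x
  simp only [op]
  rw [Finset.sum_eq_single i]
  · simp [Matrix.one_apply_eq, one_def, pairR_single]
  · intro j _ hj; simp [Matrix.one_apply_ne hj, pairR_zero]
  · simp

lemma op_coeff (M : Matrix (Fin n) (Fin n) (MonoidAlgebra K G)) (v : Fin n → MonoidAlgebra K G) :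
    op M (fun j => (v j).coeff) = fun i => ((∑ j, v j * M j i).coeff : G → K) := by
  funext i x
  simp [op, coeff_sum, coeff_mul_eq]

lemma op_zero (M : Matrix (Fin n) (Fin n) (MonoidAlgebra K G)) :
    op M (0 : Fin n → G → K) = 0 := by
  funext i x; simp [op, pairR]

lemma op_add (M : Matrix (Fin n) (Fin n) (MonoidAlgebra K G)) (f g : Fin n → G → K) :
    op M (f + g) = op M f + op M g := by
  funext i x
  simp [op, pairR, Finsupp.sum, add_mul, Finset.sum_add_distrib]

/-- Left translation with a scalar. -/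
def translate (r : K) (a : G) (f : Fin n → G → K) : Fin n → G → K :=
  fun j x => r * f j (a⁻¹ * x)

lemma op_translate (M : Matrix (Fin n) (Fin n) (MonoidAlgebra K G)) (r : K) (a : G)
    (f : Fin n → G → K) : op M (translate r a f) = translate r a (op M f) := by
  funext i x
  simp [op, translate, pairR, Finsupp.sum, Finset.mul_sum, mul_assoc]

end operator

section main

variable {K : Type*} [Ring K] {G : Type*} [Group G] {n : ℕ} (N : Subgroup G) [N.Normal]

/-- `f` lives on the cosets in `S`, with finite support on each of them. -/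
def Nice (S : Set (G ⧸ N)) (f : Fin n → G → K) : Prop :=
  (∀ j (x : G), (x : G ⧸ N) ∉ S → f j x = 0) ∧
    ∀ j (q : G ⧸ N), {x : G | f j x ≠ 0 ∧ (x : G ⧸ N) = q}.Finite

/-- `l` is the component in `N` of a vector on `S` killed by `C`. -/
def Wit (C : Matrix (Fin n) (Fin n) (MonoidAlgebra K G)) (S : Set (G ⧸ N))
    (l : Fin n → MonoidAlgebra K N) : Prop :=
  ∃ f, Nice N S f ∧ op C f = 0 ∧ ∀ j (a : N), (l j).coeff a = f j a

variable {N}

lemma Nice.mono {S T : Set (G ⧸ N)} (h : S ⊆ T) {f : Fin n → G → K} (hf : Nice N S f) :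
    Nice N T f :=
  ⟨fun j x hx => hf.1 j x fun h' => hx (h h'), hf.2⟩

lemma Wit.mono {C : Matrix (Fin n) (Fin n) (MonoidAlgebra K G)} {S T : Set (G ⧸ N)} (h : S ⊆ T)
    {l : Fin n → MonoidAlgebra K N} (hl : Wit N C S l) : Wit N C T l :=
  let ⟨f, h1, h2, h3⟩ := hl; ⟨f, h1.mono h, h2, h3⟩

lemma wit_zero (C : Matrix (Fin n) (Fin n) (MonoidAlgebra K G)) (S : Set (G ⧸ N)) :
    Wit N C S 0 :=
  ⟨0, ⟨fun _ _ _ => rfl, fun j q => by simp⟩, op_zero C, fun _ _ => by simp⟩

lemma Wit.add {C : Matrix (Fin n) (Fin n) (MonoidAlgebra K G)} {S : Set (G ⧸ N)}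
    {l l' : Fin n → MonoidAlgebra K N} (hl : Wit N C S l) (hl' : Wit N C S l') :
    Wit N C S (l + l') := by
  obtain ⟨f, ⟨f1, f2⟩, h2, h3⟩ := hl
  obtain ⟨f', ⟨f1', f2'⟩, h2', h3'⟩ := hl'
  refine ⟨f + f', ⟨fun j x hx => by simp [f1 j x hx, f1' j x hx], fun j q =>
    ((f2 j q).union (f2' j q)).subset ?_⟩, by rw [op_add, h2, h2', add_zero],
    fun j a => by simp [h3 j a, h3' j a]⟩
  rintro x ⟨hx, rfl⟩
  by_cases h : f j x = 0
  · exact .inr ⟨by simpa [h] using hx, rfl⟩
  · exact .inl ⟨h, rfl⟩

lemma nice_translate {S : Set (G ⧸ N)} {f : Fin n → G → K} (hf : Nice N S f) (r : K) (a : G)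
    {T : Set (G ⧸ N)} (hT : ∀ s ∈ S, (a : G ⧸ N) * s ∈ T) : Nice N T (translate r a f) := by
  refine ⟨fun j x hx => ?_, fun j q => ?_⟩
  · have : ((a⁻¹ * x : G) : G ⧸ N) ∉ S := fun h => hx (by simpa [← mul_assoc] using hT _ h)
    simp [translate, hf.1 j _ this]
  · refine ((hf.2 j ((a : G ⧸ N)⁻¹ * q)).image (a * ·)).subset ?_
    rintro x ⟨hx, rfl⟩
    refine ⟨a⁻¹ * x, ⟨fun h => hx (by simp [translate, h]), by simp⟩, by simp⟩

lemma Wit.smul {C : Matrix (Fin n) (Fin n) (MonoidAlgebra K G)} {S : Set (G ⧸ N)}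
    (c : MonoidAlgebra K N) {l : Fin n → MonoidAlgebra K N} (hl : Wit N C S l) :
    Wit N C S (c • l) := by
  induction c using MonoidAlgebra.induction_linear with
  | zero => rw [zero_smul]; exact wit_zero C S
  | add a b ha hb => rw [add_smul]; exact ha.add hb
  | single a r =>
    obtain ⟨f, h1, h2, h3⟩ := hl
    refine ⟨translate r (a : G) f, nice_translate h1 r _ fun s hs => ?_, ?_, fun j b => ?_⟩
    · rwa [(QuotientGroup.eq_one_iff _).2 a.2, one_mul]
    · rw [op_translate, h2]; funext j x; simp [translate]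
    · rw [Pi.smul_apply, smul_eq_mul, coeff_single_mul_apply, h3]
      simp [translate]

end main

section main

variable {K : Type*} [Ring K] {G : Type*} [Group G] {n : ℕ} {N : Subgroup G} [N.Normal]
  [LinearOrder (G ⧸ N)]
  (hL : ∀ a b c : G ⧸ N, b < c → a * b < a * c) (hR : ∀ a b c : G ⧸ N, b < c → b * a < c * a)

/-- The module of leading components of vectors killed by `C`. -/
def leading (C : Matrix (Fin n) (Fin n) (MonoidAlgebra K G)) :
    Submodule (MonoidAlgebra K N) (Fin n → MonoidAlgebra K N) where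
  carrier := {l | ∃ S : Set (G ⧸ N), S.IsPWO ∧ (∀ s ∈ S, 1 ≤ s) ∧ Wit N C S l}
  add_mem' := by
    rintro l l' ⟨S, hS, hS1, h⟩ ⟨T, hT, hT1, h'⟩
    exact ⟨S ∪ T, hS.union hT, fun s hs => hs.elim (hS1 s) (hT1 s),
      (h.mono Set.subset_union_left).add (h'.mono Set.subset_union_right)⟩
  zero_mem' := ⟨∅, Set.isPWO_empty, by simp, wit_zero C ∅⟩
  smul_mem' := by
    rintro c l ⟨S, hS, hS1, h⟩
    exact ⟨S, hS, hS1, h.smul c⟩

lemma exists_bound (C : Matrix (Fin n) (Fin n) (MonoidAlgebra K G))
    (h : (leading (N := N) C).FG) :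
    ∃ S : Set (G ⧸ N), S.IsPWO ∧ (∀ s ∈ S, 1 ≤ s) ∧ ∀ l ∈ leading (N := N) C, Wit N C S l := by
  classical
  obtain ⟨g, hg⟩ := h
  have hmem : ∀ l ∈ g, l ∈ leading (N := N) C := fun l hl => hg ▸ Submodule.subset_span hl
  choose S hS hS1 hW using hmem
  refine ⟨⋃ l ∈ g.attach, S l.1 l.2, ?_, fun s hs => ?_, fun l hl => ?_⟩
  · induction g.attach using Finset.induction with
    | empty => simp
    | @insert a t _ ih => rw [Finset.set_biUnion_insert]; exact (hS _ _).union ih
  · simp only [Set.mem_iUnion] at hs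
    obtain ⟨a, -, ha⟩ := hs
    exact hS1 a.1 a.2 s ha
  · rw [← hg] at hl
    induction hl using Submodule.span_induction with
    | mem x hx =>
      exact (hW x hx).mono (Set.subset_biUnion_of_mem
        (u := fun l : {y // y ∈ g} => S l.1 l.2) (Finset.mem_attach g ⟨x, hx⟩))
    | zero => exact wit_zero C _
    | add _ _ _ _ h h' => exact h.add h'
    | smul c _ _ h => exact h.smul c

include hL hR in
/-- A finitely supported vector killed by `C'` is killed by `C`, if `C` and `C'` have the same
leading module. -/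
lemma kernel_le (C C' : Matrix (Fin n) (Fin n) (MonoidAlgebra K G))
    (hCC' : ∀ f, op C f = 0 → op C' f = 0) (hle : leading (N := N) C' ≤ leading C)
    (hfg : (leading (N := N) C).FG)
    (x : Fin n → MonoidAlgebra K G) (hx : op C' (fun j => (x j).coeff) = 0) :
    op C (fun j => (x j).coeff) = 0 := by
  classical
  obtain ⟨S, hS, hS1, hlift⟩ := exists_bound C hfg
  let D : Finset (G ⧸ N) :=
    Finset.univ.biUnion fun j => (x j).coeff.support.image (fun g : G => (g : G ⧸ N))
  have hxD : ∀ j (g : G), (g : G ⧸ N) ∉ D → (x j).coeff g = 0 := fun j g hg => by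
    by_contra h
    exact hg (Finset.mem_biUnion.2
      ⟨j, Finset.mem_univ _, Finset.mem_image.2 ⟨g, Finsupp.mem_support_iff.2 h, rfl⟩⟩)
  rcases D.eq_empty_or_nonempty with hD | hD
  · have : (fun j => ((x j).coeff : G → K)) = 0 :=
      funext fun j => funext fun g => hxD j g (by simp [hD])
    rw [this, op_zero]
  let q₀ := D.min' hD
  let Sig : Set (G ⧸ N) := S ∪ (q₀⁻¹ * ·) '' ↑D
  have hSig : Sig.IsPWO := hS.union (D.finite_toSet.image _).isPWO
  have hSig1 : ∀ s ∈ Sig, 1 ≤ s := by
    rintro s (hs | ⟨d, hd, rfl⟩)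
    · exact hS1 s hs
    · have h := mul_le_left hL (a := q₀⁻¹) (D.min'_le d hd)
      rwa [show D.min' _ = q₀ from rfl, inv_mul_cancel] at h
  let W : Set (G ⧸ N) := (q₀ * ·) '' words Sig
  have hW : W.IsPWO :=
    (isPWO_words hL hR hSig hSig1).image_of_monotone fun a b h => mul_le_left hL h
  have hDW : ∀ d ∈ D, d ∈ W := fun d hd =>
    ⟨q₀⁻¹ * d, by simpa using mul_mem_words (one_mem_words Sig) (.inr ⟨d, hd, rfl⟩),
      mul_inv_cancel_left _ _⟩
  have hWS : ∀ q ∈ W, ∀ s ∈ S, q * s ∈ W := by
    rintro _ ⟨u, hu, rfl⟩ s hs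
    exact ⟨u * s, mul_mem_words hu (.inl hs), by simp [mul_assoc]⟩
  let Fib : G ⧸ N → Finset (G ⧸ N) := fun r => (finite_fibre hL hR hW hS r).toFinset
  have hFib : ∀ q r, q ∈ Fib r ↔ q ∈ W ∧ q⁻¹ * r ∈ S := fun q r => by simp [Fib]
  have hFible : ∀ q r, q ∈ Fib r → q ≤ r := fun q r h => by
    simpa using mul_le_left hL (a := q) (hS1 _ ((hFib q r).1 h).2)
  -- the lifts
  let lead : (Fin n → G → K) → (Fin n → MonoidAlgebra K N) := fun f j =>
    if h : (Function.support fun a : N => f j a).Finite then
      ofCoeff (Finsupp.ofSupportFinite (fun a : N => f j a) h) else 0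
  let Φ : (Fin n → MonoidAlgebra K N) → Fin n → G → K := fun l =>
    if h : Wit N C S l then h.choose else 0
  have hΦnice : ∀ l, Nice N S (Φ l) := fun l => by
    by_cases h : Wit N C S l
    · simp only [Φ, dif_pos h]; exact h.choose_spec.1
    · simp only [Φ, dif_neg h]; exact ⟨fun _ _ _ => rfl, fun j q => by simp⟩
  have hΦker : ∀ l, op C (Φ l) = 0 := fun l => by
    by_cases h : Wit N C S l
    · simp only [Φ, dif_pos h]; exact h.choose_spec.2.1
    · simp only [Φ, dif_neg h]; exact op_zero C
  let sec : G ⧸ N → G := Quotient.out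
  have hsec : ∀ q, ((sec q : G) : G ⧸ N) = q := fun q => Quotient.out_eq' q
  -- the recursively defined expansion
  have hwf : WellFounded fun a b : G ⧸ N => a < b ∧ a ∈ W ∧ b ∈ W :=
    Set.wellFoundedOn_iff.1 hW.isWF
  let step : ∀ q : G ⧸ N, (∀ q' : G ⧸ N, q' < q ∧ q' ∈ W ∧ q ∈ W → Fin n → G → K) →
      Fin n → G → K := fun q c =>
    Φ (lead (translate 1 (sec q)⁻¹ fun j g => (x j).coeff g -
      ∑ q' ∈ Fib g, if h : q' < q ∧ q' ∈ W ∧ q ∈ W then translate 1 (sec q') (c q' h) j g
        else 0))
  let c : G ⧸ N → Fin n → G → K := hwf.fix step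
  let term : G ⧸ N → Fin n → G → K := fun q => translate 1 (sec q) (c q)
  let R : G ⧸ N → Fin n → G → K := fun q j g =>
    (x j).coeff g - ∑ q' ∈ (Fib g).filter (· < q), term q' j g
  have hc : ∀ q ∈ W, c q = Φ (lead (translate 1 (sec q)⁻¹ (R q))) := by
    intro q hq
    refine (hwf.fix_eq step q).trans ?_
    simp only [step, R]
    congr 3
    funext j g
    rw [Finset.sum_filter]
    congr 1
    refine Finset.sum_congr rfl fun q' hq' => ?_
    by_cases h : q' < q
    · rw [dif_pos ⟨h, ((hFib _ _).1 hq').1, hq⟩, if_pos h]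
    · rw [dif_neg fun h' => h h'.1, if_neg h]
  have hcnice : ∀ q, Nice N S (c q) := fun q => by
    rw [show c q = _ from hwf.fix_eq step q]; exact hΦnice _
  have hcker : ∀ q, op C (c q) = 0 := fun q => by
    rw [show c q = _ from hwf.fix_eq step q]; exact hΦker _
  have hterm : ∀ q j (g : G), q⁻¹ * (g : G ⧸ N) ∉ S → term q j g = 0 := fun q j g h => by
    have : (((sec q)⁻¹ * g : G) : G ⧸ N) ∉ S := by simpa [hsec] using h
    simp [term, translate, (hcnice q).1 j _ this]
  have htermker : ∀ q, op C (term q) = 0 := fun q => by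
    simp only [term, op_translate, hcker q]; funext j g; simp [translate]
  -- sums over fibres can be taken over any larger set inside `W`
  have hsum : ∀ (U : Finset (G ⧸ N)), ↑U ⊆ W → ∀ (P : G ⧸ N → Prop) j (g : G), Fib g ⊆ U →
      ∑ q' ∈ (Fib g).filter P, term q' j g = ∑ q' ∈ U.filter P, term q' j g := by
    intro U hU P j g hsub
    refine Finset.sum_subset (Finset.filter_subset_filter _ hsub) fun q hq hq' => hterm q j g ?_
    intro hqS
    obtain ⟨hqU, hqP⟩ := Finset.mem_filter.1 hq
    exact hq' (Finset.mem_filter.2 ⟨(hFib _ _).2 ⟨hU hqU, hqS⟩, hqP⟩)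
  have hopsum : ∀ (M : Matrix (Fin n) (Fin n) (MonoidAlgebra K G)), (∀ q, op M (term q) = 0) →
      ∀ (P : G ⧸ N → Prop) i z,
        op M (fun j g => ∑ q' ∈ (Fib g).filter P, term q' j g) i z = 0 := by
    intro M hM P i z
    let U : Finset (G ⧸ N) := (Finset.univ.biUnion fun j : Fin n =>
      (M j i).coeff.support).biUnion fun g => Fib ((z * g⁻¹ : G) : G ⧸ N)
    have hU : ↑U ⊆ W := by
      intro q hq
      obtain ⟨g, -, hg⟩ := Finset.mem_biUnion.1 hq
      exact ((hFib _ _).1 hg).1
    calc op M (fun j g => ∑ q' ∈ (Fib g).filter P, term q' j g) i z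
        = ∑ j, pairR (M j i) (fun g => ∑ q' ∈ U.filter P, term q' j (z * g⁻¹)) := by
          simp only [op]
          refine Finset.sum_congr rfl fun j _ => ?_
          refine Finsupp.sum_congr fun g hg => ?_
          dsimp only
          rw [hsum U hU P j (z * g⁻¹)]
          intro q hq
          exact Finset.mem_biUnion.2
            ⟨g, Finset.mem_biUnion.2 ⟨j, Finset.mem_univ _, hg⟩, hq⟩
      _ = ∑ q' ∈ U.filter P, op M (term q') i z := by
          simp only [pairR_finsetSum, op]
          exact Finset.sum_comm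
      _ = 0 := Finset.sum_eq_zero fun q _ => by rw [hM q]; rfl
  have hsub : ∀ (M : Matrix (Fin n) (Fin n) (MonoidAlgebra K G)) (f f' : Fin n → G → K),
      op M (fun j g => f j g - f' j g) = op M f - op M f' := by
    intro M f f'
    funext i z
    simp [op, pairR, Finsupp.sum, sub_mul, Finset.sum_sub_distrib]
  -- each step clears its coset
  have hclear : ∀ q, q ∈ W → ∀ j (g : G), (g : G ⧸ N) = q → term q j g = R q j g := by
    intro q
    induction q using hwf.induction with
    | _ q ih =>
      intro hq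
      -- below `q` the residual vanishes
      have hbelow : ∀ j (g : G), (g : G ⧸ N) < q → R q j g = 0 := by
        intro j g hg
        by_cases hgW : (g : G ⧸ N) ∈ W
        · have h := ih _ ⟨hg, hgW, hq⟩ hgW j g rfl
          simp only [R]
          have hfil : (Fib (g : G ⧸ N)).filter (· < q) = Fib (g : G ⧸ N) :=
            Finset.filter_true_of_mem fun q' h' => (hFible _ _ h').trans_lt hg
          rw [hfil, ← Finset.sum_filter_add_sum_filter_not (Fib (g : G ⧸ N))
            (fun q' => q' < (g : G ⧸ N))]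
          have h2 : ∑ q' ∈ (Fib (g : G ⧸ N)).filter (fun q' => ¬ q' < (g : G ⧸ N)), term q' j g =
              term (g : G ⧸ N) j g := by
            rw [Finset.sum_eq_single (g : G ⧸ N)]
            · intro q' h' hne
              obtain ⟨h1', h2'⟩ := Finset.mem_filter.1 h'
              exact absurd (lt_of_le_of_ne (hFible _ _ h1') hne) h2'
            · intro h'
              refine hterm _ j g fun hS' => h' (Finset.mem_filter.2 ⟨(hFib _ _).2 ⟨hgW, hS'⟩, ?_⟩)
              exact lt_irrefl _
          rw [h2, h]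
          simp only [R]
          abel
        · have h0 : (x j).coeff g = 0 := hxD j g fun h => hgW (hDW _ h)
          simp only [R, h0, zero_sub, neg_eq_zero]
          refine Finset.sum_eq_zero fun q' h' => ?_
          obtain ⟨hw', hs'⟩ := (hFib _ _).1 (Finset.mem_of_mem_filter q' h')
          exact absurd (by simpa using hWS _ hw' _ hs') hgW
      have houtW : ∀ j (g : G), (g : G ⧸ N) ∉ W → R q j g = 0 := by
        intro j g hgW
        have h0 : (x j).coeff g = 0 := hxD j g fun h => hgW (hDW _ h)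
        simp only [R, h0, zero_sub, neg_eq_zero]
        refine Finset.sum_eq_zero fun q' h' => ?_
        obtain ⟨hw', hs'⟩ := (hFib _ _).1 (Finset.mem_of_mem_filter q' h')
        exact absurd (by simpa using hWS _ hw' _ hs') hgW
      have hker : op C' (R q) = 0 := by
        funext i z
        simp only [R]
        rw [hsub, Pi.sub_apply, Pi.sub_apply, hx]
        simp only [Pi.zero_apply, zero_sub, neg_eq_zero]
        convert hopsum C' (fun p => hCC' _ (htermker p)) (· < q) i z
      have hRnice : Nice N (W ∩ Set.Ici q) (R q) := by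
        refine ⟨fun j g hg => ?_, fun j r => ?_⟩
        · by_cases hgW : (g : G ⧸ N) ∈ W
          · exact hbelow j g (not_le.1 fun h => hg ⟨hgW, h⟩)
          · exact houtW j g hgW
        · have hfin : ∀ q' : G ⧸ N, {g : G | term q' j g ≠ 0 ∧ (g : G ⧸ N) = r}.Finite :=
            fun q' => (nice_translate (hcnice q') 1 (sec q') (T := Set.univ)
              fun _ _ => trivial).2 j r
          refine (((x j).coeff.support.finite_toSet).union
            ((Fib r).finite_toSet.biUnion fun q' _ => hfin q')).subset ?_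
          rintro g ⟨hg, rfl⟩
          by_contra hnot
          simp only [Set.mem_union, Set.mem_iUnion, not_or, not_exists] at hnot
          refine hg ?_
          have h0 : (x j).coeff g = 0 := Finsupp.notMem_support_iff.1 hnot.1
          simp only [R, h0, zero_sub, neg_eq_zero]
          refine Finset.sum_eq_zero fun q' h' => ?_
          by_contra hne
          exact hnot.2 q' (Finset.mem_of_mem_filter q' h') ⟨hne, rfl⟩
      -- the leading component lifts
      set f := translate 1 (sec q)⁻¹ (R q) with hf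
      have hfnice : Nice N ((q⁻¹ * ·) '' (W ∩ Set.Ici q)) f :=
        nice_translate hRnice 1 _ fun s hs => ⟨s, hs, by simp [hsec]⟩
      have hfin : ∀ j, (Function.support fun a : N => f j a).Finite := fun j =>
        ((hfnice.2 j 1).preimage Subtype.val_injective.injOn).subset fun a ha =>
          ⟨ha, (QuotientGroup.eq_one_iff _).2 a.2⟩
      have hlead : ∀ j (a : N), (lead f j).coeff a = f j a := fun j a => by
        simp only [lead, dif_pos (hfin j)]; rfl
      have hmem : lead f ∈ leading C' :=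
        ⟨_, (hW.mono Set.inter_subset_left).image_of_monotone fun a b h => mul_le_left hL h,
          by rintro _ ⟨w, hw, rfl⟩; simpa using mul_le_left hL (a := q⁻¹) hw.2,
          f, hfnice, by rw [hf, op_translate, hker]; funext j g; simp [translate], hlead⟩
      have hwit := hlift _ (hle hmem)
      intro j g hg
      have hgN : (sec q)⁻¹ * g ∈ N := (QuotientGroup.eq_one_iff _).1 (by simp [hsec, hg])
      have hval := hwit.choose_spec.2.2 j ⟨_, hgN⟩
      rw [hlead] at hval
      simp only [term, translate, one_mul, hc q hq, ← hf, Φ, dif_pos hwit]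
      rw [← hval]
      simp [f, translate]
  -- the expansion is `x`
  have hexp : (fun j => ((x j).coeff : G → K)) =
      fun j (g : G) => ∑ q' ∈ (Fib (g : G ⧸ N)).filter (fun _ => True), term q' j g := by
    funext j g
    simp only [Finset.filter_true]
    by_cases hgW : (g : G ⧸ N) ∈ W
    · have h := hclear _ hgW j g rfl
      rw [← Finset.sum_filter_add_sum_filter_not (Fib (g : G ⧸ N))
        (fun q' => q' < (g : G ⧸ N))]
      have h2 : ∑ q' ∈ (Fib (g : G ⧸ N)).filter (fun q' => ¬ q' < (g : G ⧸ N)), term q' j g =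
          term (g : G ⧸ N) j g := by
        rw [Finset.sum_eq_single (g : G ⧸ N)]
        · intro q' h' hne
          obtain ⟨h1', h2'⟩ := Finset.mem_filter.1 h'
          exact absurd (lt_of_le_of_ne (hFible _ _ h1') hne) h2'
        · intro h'
          refine hterm _ j g fun hS' => h' (Finset.mem_filter.2 ⟨(hFib _ _).2 ⟨hgW, hS'⟩, ?_⟩)
          exact lt_irrefl _
      rw [h2, h]
      simp only [R]
      abel
    · rw [hxD j g fun h => hgW (hDW _ h)]
      refine (Finset.sum_eq_zero fun q' h' => ?_).symm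
      obtain ⟨hw', hs'⟩ := (hFib _ _).1 h'
      exact absurd (by simpa using hWS _ hw' _ hs') hgW
  funext i z
  rw [hexp]
  convert hopsum C htermker (fun _ => True) i z
  rfl

include hL hR in
/-- The core statement, with the order given. -/
theorem stablyFinite_of_linearOrder [IsNoetherianRing (MonoidAlgebra K N)] :
    IsStablyFiniteRing (MonoidAlgebra K G) := by
  refine ⟨fun m => ⟨fun {A B} hAB => ?_⟩⟩
  have hmono : ∀ (k : ℕ) (f : Fin m → G → K), op (B ^ k) f = 0 → op (B ^ (k + 1)) f = 0 :=
    fun k f hf => by rw [pow_succ, op_mul, hf, op_zero]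
  obtain ⟨k, hk⟩ := monotone_stabilizes_iff_noetherian.2
    (inferInstance : IsNoetherian (MonoidAlgebra K N) (Fin m → MonoidAlgebra K N))
    ⟨fun k => leading (N := N) (B ^ k), monotone_nat_of_le_succ fun k l ⟨S, h1, h2, f, h3, h4, h5⟩ =>
      ⟨S, h1, h2, f, h3, hmono k f h4, h5⟩⟩
  have hle : leading (N := N) (B ^ (k + 1)) ≤ leading (B ^ k) := (hk (k + 1) (Nat.le_succ k)).ge
  have hAk : ∀ l : ℕ, A ^ l * B ^ l = 1 := by
    intro l
    induction l with
    | zero => simp
    | succ l ih => rw [pow_succ, pow_succ', ← mul_assoc, mul_assoc (A ^ l), hAB, mul_one, ih]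
  have hE : (1 - B * A) * B = 0 := by
    rw [sub_mul, one_mul, mul_assoc, hAB, mul_one, sub_self]
  refine (sub_eq_zero.1 ?_).symm
  refine Matrix.ext fun r j => coeff_injective (Finsupp.ext fun z => ?_)
  let v : Fin m → MonoidAlgebra K G := (1 - B * A) r
  let x : Fin m → MonoidAlgebra K G := fun i => ∑ j, v j * (A ^ k) j i
  have hxop : (fun i => ((x i).coeff : G → K)) = op (A ^ k) fun j => (v j).coeff :=
    (op_coeff _ _).symm
  have hvB : op B (fun j => ((v j).coeff : G → K)) = 0 := by
    rw [op_coeff]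
    funext i g
    have : (∑ j, v j * B j i) = 0 := Matrix.mul_apply.symm.trans (congrFun (congrFun hE r) i)
    simp [this]
  have hx : op (B ^ (k + 1)) (fun i => ((x i).coeff : G → K)) = 0 := by
    rw [hxop, ← op_mul, pow_succ, ← mul_assoc, hAk, one_mul, hvB]
  have h := kernel_le hL hR (B ^ k) (B ^ (k + 1)) (hmono k) hle (IsNoetherian.noetherian _) x hx
  rw [hxop, ← op_mul, hAk, op_one] at h
  simpa [v] using congrFun (congrFun h j) z

end main

end Ordered

/-- Extensions of groups with Noetherian group algebra by bi-orderable groups. -/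
theorem stablyFinite_of_biOrderable {K : Type*} [Ring K] {G : Type*} [Group G] (N : Subgroup G)
    [N.Normal] [IsNoetherianRing (MonoidAlgebra K N)] (hQ : IsBiOrderable (G ⧸ N)) :
    IsStablyFiniteRing (MonoidAlgebra K G) := by
  classical
  obtain ⟨r, hr, hr'⟩ := hQ
  let _ : LinearOrder (G ⧸ N) := linearOrderOfSTO r
  exact Ordered.stablyFinite_of_linearOrder (N := N)
    (fun a b c h => (hr' a b c h).1) (fun a b c h => (hr' a b c h).2)

end Vale.Agent.P194
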