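import Vale.Agent.P194.Ordered
import Vale.Agent.P194.Extension
import Mathlib.GroupTheory.ResiduallyFinite
import Mathlib.GroupTheory.QuotientGroup.Basic
import Mathlib.LinearAlgebra.Finsupp.Pi
import Mathlib.LinearAlgebra.FreeModule.Finite.Basic
import Mathlib.RingTheory.Noetherian.Basic
import Mathlib.Algebra.MonoidAlgebra.Module
import Mathlib.RingTheory.PrincipalIdealDomain

/-! Stable finiteness is residual; (finitely generated residually finite)-by-bi-orderable groups. -/

namespace Vale.Agent.P194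

open MonoidAlgebra

universe u v

/-- If every finite set of nontrivial elements survives in a quotient with stably finite group
algebra, the group algebra is stably finite. -/
theorem stablyFinite_of_residual {K : Type u} [Ring K] {G : Type v} [Group G]
    (h : ∀ F : Finset G, (1 : G) ∉ F → ∃ N : Subgroup G, ∃ _ : N.Normal,
      (∀ x ∈ F, x ∉ N) ∧ IsStablyFiniteRing (MonoidAlgebra K (G ⧸ N))) :
    IsStablyFiniteRing (MonoidAlgebra K G) := by
  classical
  refine ⟨fun n => ⟨fun {A B} hAB => ?_⟩⟩
  let C := B * A - 1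
  let S : Finset G := Finset.univ.biUnion fun p : Fin n × Fin n => (C p.1 p.2).coeff.support
  let F : Finset G := ((S ×ˢ S).filter fun p => p.1 ≠ p.2).image fun p => p.1⁻¹ * p.2
  have h1 : (1 : G) ∉ F := by
    simp only [F, Finset.mem_image, Finset.mem_filter, not_exists, not_and]
    rintro p ⟨-, hp⟩ he
    exact hp (inv_mul_eq_one.1 he)
  obtain ⟨N, hN, hF, hSF⟩ := h F h1
  let π := MonoidAlgebra.mapDomainRingHom K (QuotientGroup.mk' N)
  have hker : π.mapMatrix (B * A) = 1 := by
    have h2 : π.mapMatrix A * π.mapMatrix B = 1 := by rw [← map_mul, hAB, map_one]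
    rw [map_mul]
    exact (hSF.isDedekindFiniteMonoid n).mul_eq_one_symm h2
  have hinj : Set.InjOn (QuotientGroup.mk : G → G ⧸ N) (S : Set G) := by
    intro x hx y hy he
    by_contra hne
    exact hF _ (Finset.mem_image.2 ⟨(x, y), Finset.mem_filter.2
      ⟨Finset.mem_product.2 ⟨hx, hy⟩, hne⟩, rfl⟩) (QuotientGroup.eq.1 he)
  refine sub_eq_zero.1 (Matrix.ext fun i j => coeff_injective (Finsupp.ext fun z => ?_))
  have hz : π (C i j) = 0 := by
    have : π.mapMatrix C = 0 := by rw [map_sub, hker, map_one, sub_self]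
    exact congrFun (congrFun this i) j
  by_cases hzS : z ∈ (C i j).coeff.support
  · have h3 := congrArg (fun w => w.coeff (z : G ⧸ N)) hz
    simp only [π, MonoidAlgebra.mapDomainRingHom_apply, coeff_mapDomain, coeff_zero,
      Finsupp.zero_apply, Finsupp.mapDomain, Finsupp.sum, Finsupp.coe_finsetSum,
      Finset.sum_apply, QuotientGroup.coe_mk'] at h3
    rw [Finset.sum_eq_single z (fun b hb hbz => Finsupp.single_eq_of_ne' fun he => hbz
        (hinj (Finset.mem_biUnion.2 ⟨(i, j), Finset.mem_univ _, hb⟩)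
          (Finset.mem_biUnion.2 ⟨(i, j), Finset.mem_univ _, hzS⟩) he))
      (fun h' => absurd hzS h'), Finsupp.single_eq_same] at h3
    exact h3
  · exact Finsupp.notMem_support_iff.1 hzS

/-- In a finitely generated normal subgroup, each finite-index normal subgroup contains one which
is normal in the whole group. -/
theorem exists_normal_finite_index_le {G : Type v} [Group G] (N : Subgroup G) [N.Normal]
    [Group.FG N] (M₀ : Subgroup N) [M₀.Normal] [M₀.FiniteIndex] :
    ∃ M : Subgroup G, M.Normal ∧ M ≤ N ∧ M ≤ M₀.map N.subtype ∧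
      Finite (N ⧸ M.subgroupOf N) := by
  classical
  obtain ⟨S, hS⟩ := Group.fg_def.1 ‹Group.FG N›
  have : Finite (N →* N ⧸ M₀) :=
    Finite.of_injective (fun φ (s : S) => φ s) fun φ ψ h =>
      MonoidHom.eq_of_eqOn_dense hS fun s hs => congrFun h ⟨s, hs⟩
  let M₁ : Subgroup N := (MonoidHom.pi fun φ : N →* N ⧸ M₀ => φ).ker
  have hle : M₁ ≤ M₀ := fun x hx =>
    (QuotientGroup.eq_one_iff x).1 (congrFun hx (QuotientGroup.mk' M₀))
  refine ⟨M₁.map N.subtype, ⟨?_⟩, Subgroup.map_subtype_le _, Subgroup.map_mono hle, ?_⟩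
  · rintro _ ⟨x, hx, rfl⟩ g
    refine ⟨MulAut.conjNormal g x, funext fun φ => ?_, by simp⟩
    exact congrFun hx (φ.comp (MulAut.conjNormal g).toMonoidHom)
  · rw [Subgroup.subgroupOf, Subgroup.comap_map_eq_self_of_injective N.subtype_injective]
    exact Finite.of_equiv _
      (QuotientGroup.quotientKerEquivRange (MonoidHom.pi fun φ : N →* N ⧸ M₀ => φ)).symm.toEquiv

/-- (Finitely generated residually finite)-by-bi-orderable groups. -/
theorem stablyFinite_fgRF_by_biOrderable {K : Type u} [DivisionRing K] {G : Type v} [Group G]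
    (N : Subgroup G) [N.Normal] [Group.FG N] [Group.ResiduallyFinite N]
    (hQ : IsBiOrderable (G ⧸ N)) : IsStablyFiniteRing (MonoidAlgebra K G) := by
  classical
  refine stablyFinite_of_residual fun F hF => ?_
  -- one finite-index subgroup of `N` avoiding `F`
  obtain ⟨M₀, hM₀, hM₀i, hM₀F⟩ : ∃ M₀ : Subgroup N, M₀.Normal ∧ M₀.FiniteIndex ∧
      ∀ x : N, (x : G) ∈ F → x ∉ M₀ := by
    let F' : Finset N := F.preimage Subtype.val Subtype.val_injective.injOn
    have hx : ∀ x : {x // x ∈ F'}, ∃ H : FiniteIndexNormalSubgroup N, x.1 ∉ H := fun x =>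
      Group.exists_finiteIndexNormalSubgroup_notMem x.1 fun h =>
        hF (by simpa [h] using Finset.mem_preimage.1 x.2)
    choose H hH using hx
    refine ⟨⨅ x, (H x).toSubgroup, Subgroup.normal_iInf_normal fun x => inferInstance,
      Subgroup.finiteIndex_iInf fun x => inferInstance, fun x hxF hmem => ?_⟩
    exact hH ⟨x, Finset.mem_preimage.2 hxF⟩ (Subgroup.mem_iInf.1 hmem _)
  obtain ⟨M, hM, hMN, hMle, hMfin⟩ := exists_normal_finite_index_le N M₀
  refine ⟨M, hM, fun x hx hxM => ?_, ?_⟩
  · obtain ⟨y, hy, rfl⟩ := hMle hxM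
    exact hM₀F y hx hy
  let N' : Subgroup (G ⧸ M) := N.map (QuotientGroup.mk' M)
  have : N'.Normal := Subgroup.Normal.map inferInstance _ (QuotientGroup.mk'_surjective M)
  have : Finite N' := by
    refine Finite.of_surjective (Quotient.lift
      (fun x : N => (⟨(x : G ⧸ M), ⟨x, x.2, rfl⟩⟩ : N')) fun a b h => Subtype.ext ?_ :
        N ⧸ M.subgroupOf N → N') ?_
    · exact QuotientGroup.eq.2 (QuotientGroup.leftRel_apply.1 h : a⁻¹ * b ∈ M.subgroupOf N)
    · rintro ⟨_, x, hx, rfl⟩
      exact ⟨Quotient.mk _ ⟨x, hx⟩, rfl⟩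
  have : Module.Finite K (MonoidAlgebra K N') :=
    Module.Finite.equiv (MonoidAlgebra.coeffLinearEquiv K).symm
  have : IsNoetherianRing (MonoidAlgebra K N') :=
    isNoetherian_of_tower K (inferInstance : IsNoetherian K (MonoidAlgebra K N'))
  refine stablyFinite_of_biOrderable N' ?_
  obtain ⟨r, hr, hr'⟩ := hQ
  let e := QuotientGroup.quotientQuotientEquivQuotient M N hMN
  exact ⟨fun a b => r (e a) (e b), (RelEmbedding.preimage e.toEquiv.toEmbedding r).isStrictTotalOrder,
    fun a b c h => by simpa only [map_mul] using hr' (e a) (e b) (e c) h⟩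

end Vale.Agent.P194
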