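import Vale.Agent.P194.Defs
import Mathlib.Algebra.MonoidAlgebra.Defs
import Mathlib.LinearAlgebra.FiniteDimensional.Lemmas
import Mathlib.LinearAlgebra.Dimension.Constructions
import Mathlib.Data.Matrix.Basic
import Mathlib.Algebra.Module.Opposite

/-! Group algebras of sofic groups are stably finite (Elek–Szabó), by rank counting. -/

namespace Vale.Agent.P194

open MonoidAlgebra Finset

variable {K : Type*} [DivisionRing K] {G : Type*} [Group G] {n m : ℕ}

/-- The approximate regular representation of a matrix over the group algebra. -/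
noncomputable def approx (σ : G → Equiv.Perm (Fin m))
    (M : Matrix (Fin n) (Fin n) (MonoidAlgebra K G)) :
    (Fin n × Fin m → K) →ₗ[Kᵐᵒᵖ] (Fin n × Fin m → K) where
  toFun v p := ∑ j, (M p.1 j).coeff.sum fun g r => r * v (j, σ g⁻¹ p.2)
  map_add' u v := by
    funext p
    simp only [Pi.add_apply, mul_add, Finsupp.sum_add, Finset.sum_add_distrib]
  map_smul' c v := by
    funext p
    simp only [Finsupp.sum, Pi.smul_apply, MulOpposite.smul_eq_mul_unop, Finset.sum_mul,
      RingHom.id_apply, mul_assoc]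

omit [Group G] in
private lemma sum_eq (x : MonoidAlgebra K G) (φ : G → K) (S : Finset G)
    (hS : x.coeff.support ⊆ S) :
    (x.coeff.sum fun g r => r * φ g) = ∑ g ∈ S, x.coeff g * φ g :=
  Finsupp.sum_of_support_subset _ hS _ (by simp)

lemma approx_mul (σ : G → Equiv.Perm (Fin m))
    (A B : Matrix (Fin n) (Fin n) (MonoidAlgebra K G)) (S : Finset G)
    (hA : ∀ i j, (A i j).coeff.support ⊆ S) (hB : ∀ i j, (B i j).coeff.support ⊆ S)
    (i : Fin n) (x : Fin m)
    (hx : ∀ g ∈ S, ∀ h ∈ S, σ h⁻¹ (σ g⁻¹ x) = σ (h⁻¹ * g⁻¹) x) (v : Fin n × Fin m → K) :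
    approx σ A (approx σ B v) (i, x) = approx σ (A * B) v (i, x) := by
  classical
  have key : ∀ (P Q : MonoidAlgebra K G) (k : Fin n),
      P.coeff.support ⊆ S → Q.coeff.support ⊆ S →
      ((P * Q).coeff.sum fun g r => r * v (k, σ g⁻¹ x)) =
        P.coeff.sum fun g r => r * Q.coeff.sum fun h s => s * v (k, σ h⁻¹ (σ g⁻¹ x)) := by
    intro P Q k hP hQ
    rw [MonoidAlgebra.mul_def, coeff_finsuppSum, Finsupp.sum_sum_index (by simp) (by intros; simp [add_mul])]
    refine Finsupp.sum_congr fun g hg => ?_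
    rw [coeff_finsuppSum, Finsupp.sum_sum_index (by simp) (by intros; simp [add_mul]),
      Finsupp.mul_sum]
    refine Finsupp.sum_congr fun h hh => ?_
    rw [coeff_single, Finsupp.sum_single_index (by simp), hx g (hP hg) h (hQ hh), mul_inv_rev,
      mul_assoc]
  simp only [approx, LinearMap.coe_mk, AddHom.coe_mk, Matrix.mul_apply]
  calc ∑ j, (A i j).coeff.sum (fun g r =>
        r * ∑ k, (B j k).coeff.sum fun h s => s * v (k, σ h⁻¹ (σ g⁻¹ x)))
      = ∑ j, ∑ k, ((A i j * B j k).coeff.sum fun g r => r * v (k, σ g⁻¹ x)) := by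
        refine Finset.sum_congr rfl fun j _ => ?_
        simp only [key _ _ _ (hA i j) (hB j _), Finset.mul_sum]
        simp only [Finsupp.sum]
        rw [Finset.sum_comm]
    _ = _ := by
        rw [Finset.sum_comm]
        refine Finset.sum_congr rfl fun k _ => ?_
        rw [coeff_sum]
        exact Finsupp.sum_finsetSum_index (fun _ => zero_mul _) (fun _ _ _ => add_mul _ _ _)

lemma approx_one (σ : G → Equiv.Perm (Fin m)) (i : Fin n) (x : Fin m) (hx : σ 1 x = x)
    (v : Fin n × Fin m → K) :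
    approx σ (1 : Matrix (Fin n) (Fin n) (MonoidAlgebra K G)) v (i, x) = v (i, x) := by
  simp only [approx, LinearMap.coe_mk, AddHom.coe_mk]
  rw [Finset.sum_eq_single i]
  · simp [Matrix.one_apply_eq, one_def, hx]
  · intro j _ hj; simp [Matrix.one_apply_ne (Ne.symm hj)]
  · simp

omit [Group G] in
/-- A set of points with pairwise conflict-free neighbourhoods, of proportional size. -/
lemma exists_separated (F : Finset G) (g₀ : G) (τ : G → Equiv.Perm (Fin m))
    (W : Finset (Fin m)) :
    ∃ T ⊆ W, (∀ a ∈ T, ∀ b ∈ T, a ≠ b → ∀ g ∈ F, τ g b ≠ τ g₀ a) ∧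
      W.card ≤ (2 * F.card + 1) * T.card := by
  classical
  let P := W.powerset.filter fun T => ∀ a ∈ T, ∀ b ∈ T, a ≠ b → ∀ g ∈ F, τ g b ≠ τ g₀ a
  obtain ⟨T, hT, hmax⟩ := P.exists_max_image Finset.card ⟨∅, by simp [P]⟩
  obtain ⟨hTW, hTsep⟩ := Finset.mem_filter.1 hT
  rw [Finset.mem_powerset] at hTW
  refine ⟨T, hTW, hTsep, ?_⟩
  let N : Fin m → Finset (Fin m) := fun a =>
    insert a (F.image (fun g => (τ g).symm (τ g₀ a)) ∪ F.image fun g => (τ g₀).symm (τ g a))
  have hcover : W ⊆ T.biUnion N := by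
    intro x hx
    by_contra hx'
    simp only [Finset.mem_biUnion, not_exists, not_and, N, Finset.mem_insert, Finset.mem_union,
      Finset.mem_image, not_or] at hx'
    have hxT : x ∉ T := fun h => (hx' x h).1 rfl
    have hins : insert x T ∈ P := by
      refine Finset.mem_filter.2 ⟨Finset.mem_powerset.2 (Finset.insert_subset hx hTW), ?_⟩
      intro a ha b hb hab g hg heq
      rcases Finset.mem_insert.1 ha with rfl | ha'
      · rcases Finset.mem_insert.1 hb with rfl | hb'
        · exact hab rfl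
        · exact (hx' b hb').2.2 g hg (by rw [heq, Equiv.symm_apply_apply])
      · rcases Finset.mem_insert.1 hb with rfl | hb'
        · exact (hx' a ha').2.1 g hg (by rw [← heq, Equiv.symm_apply_apply])
        · exact hTsep a ha' b hb' hab g hg heq
    have := hmax _ hins
    rw [Finset.card_insert_of_notMem hxT] at this
    omega
  refine (Finset.card_le_card hcover).trans (Finset.card_biUnion_le.trans ?_)
  refine (Finset.sum_le_card_nsmul T _ (2 * F.card + 1) fun a _ => ?_).trans (by
    rw [smul_eq_mul, mul_comm])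
  refine (Finset.card_insert_le _ _).trans ?_
  have h1 := Finset.card_image_le (s := F) (f := fun g => (τ g).symm (τ g₀ a))
  have h2 := Finset.card_image_le (s := F) (f := fun g => (τ g₀).symm (τ g a))
  have h3 := Finset.card_union_le (F.image (fun g => (τ g).symm (τ g₀ a)))
    (F.image fun g => (τ g₀).symm (τ g a))
  omega

/-- Group algebras of sofic groups over division rings are stably finite. -/
theorem stablyFinite_of_sofic (hsof : IsSofic G) :
    IsStablyFiniteRing (MonoidAlgebra K G) := by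
  classical
  refine ⟨fun n => ⟨fun {A B} hAB => ?_⟩⟩
  by_contra hne
  set E := 1 - B * A with hEdef
  have hE : E ≠ 0 := fun h => hne (sub_eq_zero.1 h).symm
  have hAE : A * E = 0 := by
    rw [hEdef, mul_sub, mul_one, ← mul_assoc, hAB, one_mul, sub_self]
  obtain ⟨i₀, j₀, g₀, hg₀⟩ : ∃ i j g, (E i j).coeff g ≠ 0 := by
    by_contra h
    push Not at h
    refine hE (Matrix.ext fun i j => coeff_injective ?_)
    ext g
    simpa using h i j g
  -- the relevant finite subset of the group
  let supp : Matrix (Fin n) (Fin n) (MonoidAlgebra K G) → Finset G := fun M =>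
    univ.biUnion fun p : Fin n × Fin n => (M p.1 p.2).coeff.support
  let S : Finset G := supp A ∪ supp B ∪ supp E
  have hsupp : ∀ (M : Matrix (Fin n) (Fin n) (MonoidAlgebra K G)) i j,
      (M i j).coeff.support ⊆ supp M := fun M i j =>
    subset_biUnion_of_mem (fun p : Fin n × Fin n => (M p.1 p.2).coeff.support) (mem_univ (i, j))
  have hA : ∀ i j, (A i j).coeff.support ⊆ S := fun i j =>
    (hsupp A i j).trans (subset_union_left.trans subset_union_left)
  have hB : ∀ i j, (B i j).coeff.support ⊆ S := fun i j =>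
    (hsupp B i j).trans (subset_union_right.trans subset_union_left)
  have hES : ∀ i j, (E i j).coeff.support ⊆ S := fun i j =>
    (hsupp E i j).trans subset_union_right
  have hg₀S : g₀ ∈ S := hES i₀ j₀ (Finsupp.mem_support_iff.2 hg₀)
  let F : Finset G := S ∪ S.image (·⁻¹) ∪ (S ×ˢ S).image (fun p => p.1 * p.2⁻¹) ∪ {1}
  have hF1 : (1 : G) ∈ F := by simp [F]
  have hFS : ∀ g ∈ S, g ∈ F := fun g hg => by simp [F, hg]
  have hFi : ∀ g ∈ S, g⁻¹ ∈ F := fun g hg => by simp [F, hg]
  have hFm : ∀ g ∈ S, ∀ h ∈ S, g * h⁻¹ ∈ F := fun g hg h hh => by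
    simp only [F, mem_union, mem_image, mem_product]
    exact .inl (.inr ⟨(g, h), ⟨hg, hh⟩, rfl⟩)
  let c : ℕ := (F.card * F.card + F.card) * ((2 * S.card + 1) * (2 * n) + 1)
  obtain ⟨m, σ, hm, hmul, hfree⟩ := hsof F (1 / (c + 1)) (by positivity)
  -- bad points
  let bad₁ : Finset (Fin m) :=
    (F ×ˢ F).biUnion fun p => {x | σ p.1 (σ p.2 x) ≠ σ (p.1 * p.2) x}
  let bad₂ : Finset (Fin m) := F.biUnion fun g => if g = 1 then ∅ else ({x | σ g x = x} : Finset (Fin m))
  let bad : Finset (Fin m) := bad₁ ∪ bad₂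
  let W : Finset (Fin m) := badᶜ
  have hbad : (bad.card : ℝ) ≤ (F.card * F.card + F.card : ℕ) * ((1 / (c + 1)) * m) := by
    have h₁ : (bad₁.card : ℝ) ≤ (F.card * F.card : ℕ) * ((1 / (c + 1)) * m) := by
      refine le_trans (Nat.cast_le.2 card_biUnion_le) ?_
      push_cast
      refine le_trans (sum_le_card_nsmul _ _ _ fun p hp =>
        hmul p.1 (mem_product.1 hp).1 p.2 (mem_product.1 hp).2) ?_
      simp [card_product]
    have h₂ : (bad₂.card : ℝ) ≤ (F.card : ℕ) * ((1 / (c + 1)) * m) := by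
      refine le_trans (Nat.cast_le.2 card_biUnion_le) ?_
      push_cast
      refine le_trans (sum_le_card_nsmul _ _ ((1 / ((c : ℝ) + 1)) * m) fun g hg => ?_) ?_
      · by_cases h : g = 1
        · rw [if_pos h, card_empty, Nat.cast_zero]; positivity
        · rw [if_neg h]; exact hfree g hg h
      · simp
    have h₃ : (bad.card : ℝ) ≤ bad₁.card + bad₂.card := by exact_mod_cast card_union_le _ _
    push_cast at h₁ h₂ ⊢
    linarith
  have hgoodm : ∀ x ∈ W, ∀ g ∈ F, ∀ h ∈ F, σ g (σ h x) = σ (g * h) x := by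
    intro x hx g hg h hh
    by_contra hne
    exact mem_compl.1 hx (mem_union_left _ (mem_biUnion.2
      ⟨(g, h), mem_product.2 ⟨hg, hh⟩, by simpa using hne⟩))
  have hgoodf : ∀ x ∈ W, ∀ g ∈ F, g ≠ 1 → σ g x ≠ x := by
    intro x hx g hg hg1 hfix
    exact mem_compl.1 hx (mem_union_right _ (mem_biUnion.2 ⟨g, hg, by simp [hg1, hfix]⟩))
  have hone : ∀ x ∈ W, σ 1 x = x := fun x hx => by
    have := hgoodm x hx 1 hF1 1 hF1
    rw [one_mul] at this
    exact (σ 1).injective this
  have hx : ∀ x ∈ W, ∀ g ∈ S, ∀ h ∈ S, σ h⁻¹ (σ g⁻¹ x) = σ (h⁻¹ * g⁻¹) x :=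
    fun x hx g hg h hh => hgoodm x hx _ (hFi h hh) _ (hFi g hg)
  -- rank bounds
  let ρA : (Fin n × Fin m → K) →ₗ[Kᵐᵒᵖ] (Fin n × Fin m → K) := approx σ A
  let ρB : (Fin n × Fin m → K) →ₗ[Kᵐᵒᵖ] (Fin n × Fin m → K) := approx σ B
  let ρE : (Fin n × Fin m → K) →ₗ[Kᵐᵒᵖ] (Fin n × Fin m → K) := approx σ E
  have : FiniteDimensional Kᵐᵒᵖ K := Module.Finite.equiv
    (MulOpposite.opLinearEquiv Kᵐᵒᵖ (M := K)).symm
  have hrankK : Module.finrank Kᵐᵒᵖ K = 1 := by
    rw [(MulOpposite.opLinearEquiv Kᵐᵒᵖ (M := K)).finrank_eq]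
    exact Module.finrank_self _
  let res : (Fin n × Fin m → K) →ₗ[Kᵐᵒᵖ] (Fin n × W → K) :=
    LinearMap.funLeft Kᵐᵒᵖ K fun p => (p.1, (p.2 : Fin m))
  have hdim : Module.finrank Kᵐᵒᵖ (Fin n × Fin m → K) = n * m := by
    simp [Module.finrank_pi_fintype, hrankK]
  have hdimW : Module.finrank Kᵐᵒᵖ (Fin n × W → K) = n * W.card := by
    simp [Module.finrank_pi_fintype, hrankK]
  have hcomp : ∀ v, res (ρA (ρB v)) = res v := by
    intro v; funext p
    change approx σ A (approx σ B v) (p.1, (p.2 : Fin m)) = v (p.1, (p.2 : Fin m))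
    rw [approx_mul σ A B S hA hB p.1 _ (hx _ p.2.2), hAB, approx_one σ p.1 _ (hone _ p.2.2)]
  have hressurj : Function.Surjective res :=
    LinearMap.funLeft_surjective_of_injective _ _ _ fun p q h => by
      simp only [Prod.mk.injEq] at h
      exact Prod.ext h.1 (Subtype.ext h.2)
  have hsurj : Function.Surjective (res ∘ₗ ρA) := fun y => by
    obtain ⟨v, rfl⟩ := hressurj y
    exact ⟨ρB v, hcomp v⟩
  have hkill : LinearMap.range ρE ≤ LinearMap.ker (res ∘ₗ ρA) := by
    rintro _ ⟨v, rfl⟩
    rw [LinearMap.mem_ker]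
    funext p
    change approx σ A (approx σ E v) (p.1, (p.2 : Fin m)) = 0
    rw [approx_mul σ A E S hA hES p.1 _ (hx _ p.2.2), hAE]
    simp [approx]
  have hker : Module.finrank Kᵐᵒᵖ (LinearMap.ker (res ∘ₗ ρA)) = n * m - n * W.card := by
    have := (res ∘ₗ ρA).finrank_range_add_finrank_ker
    rw [LinearMap.range_eq_top.2 hsurj, finrank_top, hdimW, hdim] at this
    omega
  have hupper : Module.finrank Kᵐᵒᵖ (LinearMap.range ρE) ≤ n * bad.card := by
    refine (Submodule.finrank_mono hkill).trans ?_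
    rw [hker, card_compl, Fintype.card_fin, Nat.mul_sub,
      Nat.sub_sub_self (Nat.mul_le_mul_left n ((card_le_univ bad).trans_eq (Fintype.card_fin m)))]
  -- lower bound
  obtain ⟨T, hTW, hTsep, hTcard⟩ := exists_separated S g₀ (fun g => σ g⁻¹) W
  have hlower : T.card ≤ Module.finrank Kᵐᵒᵖ (LinearMap.range ρE) := by
    let pick : (Fin n × Fin m → K) →ₗ[Kᵐᵒᵖ] (T → K) :=
      LinearMap.funLeft Kᵐᵒᵖ K fun t => (i₀, (t : Fin m))
    have hpick : Function.Surjective (pick ∘ₗ ρE) := by
      intro y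
      let v : Fin n × Fin m → K := fun p =>
        ∑ t : T, if p = (j₀, σ g₀⁻¹ t) then ((E i₀ j₀).coeff g₀)⁻¹ * y t else 0
      refine ⟨v, funext fun t => ?_⟩
      change approx σ E v (i₀, (t : Fin m)) = y t
      simp only [approx, LinearMap.coe_mk, AddHom.coe_mk]
      rw [sum_eq_single j₀]
      · rw [Finsupp.sum, sum_eq_single g₀]
        · have hv : v (j₀, σ g₀⁻¹ t) = ((E i₀ j₀).coeff g₀)⁻¹ * y t := by
            simp only [v]
            rw [sum_eq_single t]
            · simp
            · intro s _ hs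
              rw [if_neg fun h => hs (Subtype.ext ((σ g₀⁻¹).injective (Prod.ext_iff.1 h).2).symm)]
            · simp
          rw [hv, ← mul_assoc, mul_inv_cancel₀ hg₀, one_mul]
        · intro g hg hne
          have hgS := hES i₀ j₀ hg
          have hv : v (j₀, σ g⁻¹ t) = 0 := by
            refine sum_eq_zero fun s _ => if_neg fun h => ?_
            have h2 : σ g⁻¹ t = σ g₀⁻¹ s := (Prod.ext_iff.1 h).2
            by_cases hst : s = t
            · subst hst
              have hW := hTW s.2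
              have hk := congrArg (σ g) h2
              rw [hgoodm _ hW g (hFS g hgS) _ (hFi g hgS),
                hgoodm _ hW g (hFS g hgS) _ (hFi g₀ hg₀S), mul_inv_cancel, hone _ hW] at hk
              exact hgoodf _ hW _ (hFm g hgS g₀ hg₀S)
                (fun h => hne (mul_inv_eq_one.1 h)) hk.symm
            · exact hTsep s s.2 t t.2 (fun h => hst (Subtype.ext h)) g hgS h2
          rw [hv, mul_zero]
        · intro h
          rw [Finsupp.notMem_support_iff.1 h, zero_mul]
      · intro j _ hj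
        refine sum_eq_zero fun g _ => ?_
        have hv : v (j, σ g⁻¹ t) = 0 :=
          sum_eq_zero fun s _ => if_neg fun h => hj (Prod.ext_iff.1 h).1
        simp only [hv, mul_zero]
      · simp
    have h := LinearMap.finrank_range_le (pick.domRestrict (LinearMap.range ρE))
    have htop : LinearMap.range (pick.domRestrict (LinearMap.range ρE)) = ⊤ := by
      refine LinearMap.range_eq_top.2 fun y => ?_
      obtain ⟨v, hv⟩ := hpick y
      exact ⟨⟨ρE v, LinearMap.mem_range_self _ v⟩, hv⟩
    rw [htop, finrank_top] at h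
    simpa [Module.finrank_pi_fintype, hrankK] using h
  have hnat : m ≤ ((2 * S.card + 1) * (2 * n) + 1) * bad.card := by
    have h1 : m = W.card + bad.card := by
      have : W.card + bad.card = Fintype.card (Fin m) := card_compl_add_card bad
      simp only [Fintype.card_fin] at this
      omega
    have h2 : W.card ≤ (2 * S.card + 1) * (n * bad.card) :=
      hTcard.trans (Nat.mul_le_mul_left _ (hlower.trans hupper))
    nlinarith
  have hreal : (m : ℝ) ≤ ((2 * S.card + 1) * (2 * n) + 1 : ℕ) * bad.card := by exact_mod_cast hnat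
  have : (m : ℝ) ≤ (c : ℝ) * ((1 / (c + 1)) * m) := by
    refine hreal.trans ((mul_le_mul_of_nonneg_left hbad (Nat.cast_nonneg _)).trans_eq ?_)
    simp only [c]
    push_cast
    ring
  have hm' : (0 : ℝ) < m := by exact_mod_cast hm
  rw [← mul_assoc, mul_one_div, div_mul_eq_mul_div, le_div_iff₀ (by positivity)] at this
  nlinarith

end Vale.Agent.P194
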