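import Vale.Agent.P194.DefsMore
import Vale.Agent.P194.Extension
import Mathlib.RingTheory.Jacobson.Ring
import Mathlib.RingTheory.FiniteType
import Mathlib.GroupTheory.FiniteAbelian.Basic
import Mathlib.Algebra.Ring.Int.Field
import Mathlib.RingTheory.IntegralClosure.IsIntegralClosure.Basic
import Mathlib.RingTheory.Adjoin.FG

/-! Group algebras of surjunctive groups over fields are stably finite. -/

namespace Vale.Agent.P194

open MonoidAlgebra Finset

variable {G : Type*} [Group G]

section finiteField

variable {K : Type*} [Ring K] {n : ℕ}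

/-- The linear cellular automaton of a matrix over the group algebra. -/
noncomputable def automaton (M : Matrix (Fin n) (Fin n) (MonoidAlgebra K G))
    (c : G → Fin n → K) : G → Fin n → K :=
  fun g i => ∑ j, pair (M i j) fun h => c (g * h) j

omit [Group G] in
lemma pair_finsetSum_right {α : Type*} (x : MonoidAlgebra K G) (s : Finset α)
    (f : α → G → K) : pair x (fun a => ∑ i ∈ s, f i a) = ∑ i ∈ s, pair x (f i) := by
  simp only [pair, Finsupp.sum, Finset.mul_sum]
  exact Finset.sum_comm

lemma automaton_comp (A B : Matrix (Fin n) (Fin n) (MonoidAlgebra K G)) (c : G → Fin n → K) :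
    automaton A (automaton B c) = automaton (A * B) c := by
  funext g i
  simp only [automaton, Matrix.mul_apply, pair_sum, pair_mul, pair_finsetSum_right, mul_assoc]
  exact Finset.sum_comm

lemma automaton_one (c : G → Fin n → K) :
    automaton (1 : Matrix (Fin n) (Fin n) (MonoidAlgebra K G)) c = c := by
  funext g i
  simp only [automaton]
  rw [Finset.sum_eq_single i]
  · simp [Matrix.one_apply_eq, one_def, pair_single]
  · intro j _ hj; simp [Matrix.one_apply_ne (Ne.symm hj), pair_zero]
  · simp

lemma automaton_inj (A B : Matrix (Fin n) (Fin n) (MonoidAlgebra K G))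
    (h : ∀ c, automaton A c = automaton B c) : A = B := by
  classical
  refine Matrix.ext fun i j => coeff_injective (Finsupp.ext fun x => ?_)
  have := congrFun (congrFun (h fun a k => if a = x ∧ k = j then 1 else 0) 1) i
  simp only [automaton, one_mul] at this
  have key : ∀ y : MonoidAlgebra K G, pair y (fun a => if a = x then (1 : K) else 0) = y.coeff x :=
    fun y => by
      simp only [pair, mul_ite, mul_one, mul_zero, Finsupp.sum]
      rw [Finset.sum_ite_eq']
      split_ifs with hx
      · rfl
      · exact (Finsupp.notMem_support_iff.1 hx).symm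
  rw [Finset.sum_eq_single j (fun k _ hk => by simp [pair, hk]) (by simp),
    Finset.sum_eq_single j (fun k _ hk => by simp [pair, hk]) (by simp)] at this
  simpa [key] using this

/-- For a finite coefficient ring, surjunctivity gives stable finiteness. -/
lemma stablyFinite_of_surjunctive_finite [Finite K] (hsurj : IsSurjunctive G) :
    IsStablyFiniteRing (MonoidAlgebra K G) := by
  classical
  refine ⟨fun n => ⟨fun {A B} hAB => ?_⟩⟩
  let e : (Fin n → K) ≃ Fin (Nat.card (Fin n → K)) := Finite.equivFin _
  let τ := fun c => e ∘ automaton B (e.symm ∘ c)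
  have hleft : Function.LeftInverse (automaton A) (automaton B) := fun c => by
    rw [automaton_comp, hAB, automaton_one]
  have hinj : Function.Injective τ := fun c d h => by
    have h' : e.symm ∘ c = e.symm ∘ d :=
      hleft.injective (funext fun g => e.injective (congrFun h g))
    exact funext fun g => e.symm.injective (congrFun h' g)
  have hCA : ∃ (M : Finset G) (μ : (M → Fin (Nat.card (Fin n → K))) → Fin (Nat.card (Fin n → K))),
      ∀ c g, τ c g = μ fun m => c (g * m) := by
    refine ⟨univ.biUnion fun p : Fin n × Fin n => (B p.1 p.2).coeff.support,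
      fun u => e fun i => ∑ j, pair (B i j) fun h =>
        if hh : h ∈ univ.biUnion (fun p : Fin n × Fin n => (B p.1 p.2).coeff.support)
        then e.symm (u ⟨h, hh⟩) j else 0, fun c g => ?_⟩
    simp only [τ, Function.comp_apply]
    congr 1
    funext i
    refine Finset.sum_congr rfl fun j _ => ?_
    simp only [pair, Finsupp.sum]
    refine Finset.sum_congr rfl fun h hh => ?_
    rw [dif_pos (Finset.mem_biUnion.2 ⟨(i, j), Finset.mem_univ _, hh⟩)]
    rfl
  have hτ : Function.Surjective τ := hsurj _ τ hCA hinj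
  have hright : Function.RightInverse (automaton A) (automaton B) := by
    refine hleft.rightInverse_of_surjective fun d => ?_
    obtain ⟨c, hc⟩ := hτ (e ∘ d)
    exact ⟨e.symm ∘ c, funext fun g => e.injective (congrFun hc g)⟩
  refine automaton_inj _ _ fun c => ?_
  rw [← automaton_comp, automaton_one]
  exact hright c

end finiteField

lemma isJacobsonRing_int : IsJacobsonRing ℤ := by
  refine isJacobsonRing_iff_prime_eq.2 fun P hP => ?_
  by_cases h : P = ⊥
  · subst h
    refine le_bot_iff.1 fun x hx => ?_
    have := Ideal.mem_jacobson_bot.1 hx x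
    rcases Int.isUnit_iff.1 this with h1 | h1
    · exact mul_self_eq_zero.1 (by linarith)
    · nlinarith [mul_self_nonneg x]
  · exact Ideal.jacobson_eq_self_of_isMaximal (H := hP.isMaximal h)

/-- Group algebras of surjunctive groups over fields are stably finite. -/
theorem stablyFinite_of_surjunctive {L : Type*} [Field L] (hsurj : IsSurjunctive G) :
    IsStablyFiniteRing (MonoidAlgebra L G) := by
  classical
  refine ⟨fun n => ⟨fun {A B} hAB => ?_⟩⟩
  by_contra hne
  obtain ⟨i₀, j₀, g₀, hg₀⟩ : ∃ i j g, ((B * A - 1 : Matrix (Fin n) (Fin n) _) i j).coeff g ≠ 0 := by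
    by_contra h
    push Not at h
    refine hne (sub_eq_zero.1 (Matrix.ext fun i j => coeff_injective (Finsupp.ext fun g => ?_)))
    simpa using h i j g
  let cs : Matrix (Fin n) (Fin n) (MonoidAlgebra L G) → Finset L := fun M =>
    univ.biUnion fun p : Fin n × Fin n =>
      (M p.1 p.2).coeff.support.image (M p.1 p.2).coeff
  let c := ((B * A - 1 : Matrix (Fin n) (Fin n) _) i₀ j₀).coeff g₀
  let R : Subalgebra ℤ L := Algebra.adjoin ℤ (↑(cs A ∪ cs B ∪ {c⁻¹}) : Set L)
  have : Algebra.FiniteType ℤ R := ⟨(Subalgebra.fg_top R).2 (Subalgebra.fg_adjoin_finset _)⟩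
  -- lift a matrix to the subring
  have hlift : ∀ M : Matrix (Fin n) (Fin n) (MonoidAlgebra L G), cs M ⊆ cs A ∪ cs B ∪ {c⁻¹} →
      ∃ M' : Matrix (Fin n) (Fin n) (MonoidAlgebra R G),
        M'.map (mapRingHom G R.val.toRingHom) = M := by
    intro M hM
    have hmem : ∀ i j g, (M i j).coeff g ∈ R := fun i j g => by
      by_cases h : g ∈ (M i j).coeff.support
      · exact Algebra.subset_adjoin (hM (mem_biUnion.2 ⟨(i, j), mem_univ _, mem_image.2 ⟨g, h, rfl⟩⟩))
      · rw [Finsupp.notMem_support_iff.1 h]; exact R.zero_mem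
    refine ⟨fun i j => ∑ g ∈ (M i j).coeff.support, single g ⟨_, hmem i j g⟩,
      Matrix.ext fun i j => ?_⟩
    change mapRingHom G R.val.toRingHom (∑ g ∈ (M i j).coeff.support, single g ⟨_, hmem i j g⟩) = _
    rw [map_sum]
    conv_rhs => rw [← sum_coeff_single (M i j)]
    refine Finset.sum_congr rfl fun g _ => ?_
    simp
  obtain ⟨A', hA'⟩ := hlift A (subset_union_left.trans subset_union_left)
  obtain ⟨B', hB'⟩ := hlift B (subset_union_right.trans subset_union_left)
  let ι := (mapRingHom G R.val.toRingHom).mapMatrix (m := Fin n)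
  have hι : Function.Injective ι := by
    intro X Y h
    refine Matrix.ext fun i j => coeff_injective (Finsupp.ext fun g => Subtype.ext ?_)
    have := congrArg (fun Z : Matrix (Fin n) (Fin n) (MonoidAlgebra L G) => (Z i j).coeff g) h
    simpa [ι] using this
  have hιA : ι A' = A := hA'
  have hιB : ι B' = B := hB'
  have hAB' : A' * B' = 1 := hι (by rw [map_mul, map_one, hιA, hιB, hAB])
  -- a finite residue field
  obtain ⟨m, hm⟩ := Ideal.exists_maximal R
  let _ : Field (R ⧸ m) := Ideal.Quotient.field m
  have : Algebra.FiniteType ℤ (R ⧸ m) :=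
    Algebra.FiniteType.of_surjective (Ideal.Quotient.mkₐ ℤ m) Ideal.Quotient.mk_surjective
  have := isJacobsonRing_int
  have : Module.Finite ℤ (R ⧸ m) := finite_of_finite_type_of_isJacobsonRing ℤ (R ⧸ m)
  have : Finite (R ⧸ m) := by
    have hnot : ¬ Function.Injective (algebraMap ℤ (R ⧸ m)) := fun hinj =>
      Int.not_isField (isField_of_isIntegral_of_isField hinj (Field.toIsField (R ⧸ m)))
    obtain ⟨p, hp⟩ := CharP.exists (R ⧸ m)
    have hp0 : p ≠ 0 := by
      rintro rfl
      have := CharP.charP_to_charZero (R ⧸ m)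
      exact hnot (algebraMap ℤ (R ⧸ m)).injective_int
    have : AddGroup.FG (R ⧸ m) := Module.Finite.iff_addGroup_fg.1 inferInstance
    refine AddCommGroup.finite_of_fg_isAddTorsion _ fun x => ?_
    refine isOfFinAddOrder_iff_nsmul_eq_zero.2 ⟨p, Nat.pos_of_ne_zero hp0, ?_⟩
    rw [nsmul_eq_mul, CharP.cast_eq_zero, zero_mul]
  -- reduce
  let π := (mapRingHom G (Ideal.Quotient.mk m)).mapMatrix (m := Fin n)
  have hfin := stablyFinite_of_surjunctive_finite (K := R ⧸ m) hsurj
  have hπ : π (B' * A' - 1) = 0 := by
    rw [map_sub, map_mul, map_one, (hfin.isDedekindFiniteMonoid n).mul_eq_one_symm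
      (a := π A') (b := π B') (by rw [← map_mul, hAB', map_one]), sub_self]
  have hc : ((B' * A' - 1) i₀ j₀).coeff g₀ * ⟨c⁻¹, Algebra.subset_adjoin (by simp)⟩ = 1 := by
    apply Subtype.ext
    have h1 : ι (B' * A' - 1) = B * A - 1 := by
      rw [map_sub, map_mul, map_one, hιA, hιB]
    have h2 := congrArg (fun Z : Matrix (Fin n) (Fin n) (MonoidAlgebra L G) => (Z i₀ j₀).coeff g₀) h1
    simp only [ι, RingHom.mapMatrix_apply, Matrix.map_apply, coeff_mapRingHom] at h2
    simp only [Subalgebra.coe_mul, Subalgebra.coe_one]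
    refine (congrArg (· * c⁻¹) h2).trans ?_
    exact mul_inv_cancel₀ hg₀
  have h0 := congrArg (fun Z : Matrix (Fin n) (Fin n) (MonoidAlgebra (R ⧸ m) G) =>
    (Z i₀ j₀).coeff g₀) hπ
  simp only [π, RingHom.mapMatrix_apply, Matrix.map_apply, coeff_mapRingHom] at h0
  have h1 := congrArg (Ideal.Quotient.mk m) hc
  rw [map_mul, map_one] at h1
  refine one_ne_zero (α := R ⧸ m) (h1.symm.trans ?_)
  simp at h0 ⊢
  simp [h0]

end Vale.Agent.P194
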